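import Crest.Agent.R182.D.PC

/-! R182/D: extensions of virtually polycyclic groups. -/

set_option autoImplicit false
set_option linter.unusedVariables false
set_option linter.unusedSectionVars false
open Set Filter Topology Crest.GroupTheory
open scoped Pointwise commutatorElement

noncomputable section
namespace Crest.Agent.R182

variable {G : Type*} [Group G]

/-- a subgroup `H` of index `n` is the stabiliser of a point for a homomorphism `G →* Equiv.Perm (Fin n)` (action on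
`G ⧸ H ≃ Fin n`); such homomorphisms are determined by the images of the generators -/
theorem finite_index_eq [Group.FG G] {n : ℕ} (hn : n ≠ 0) : {H : Subgroup G | H.index = n}.Finite := by
  classical
  obtain ⟨S, hS, hf⟩ := Group.fg_iff.1 ‹Group.FG G›
  have := hf.to_subtype
  have : Finite (G →* Equiv.Perm (Fin n)) :=
    Finite.of_injective (fun (φ : G →* Equiv.Perm (Fin n)) (s : S) => φ s) fun φ ψ h =>
      MonoidHom.eq_of_eqOn_dense hS fun s hs => congrFun h ⟨s, hs⟩
  refine (Set.finite_range fun p : (G →* Equiv.Perm (Fin n)) × Fin n =>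
    (MulAction.stabilizer (Equiv.Perm (Fin n)) p.2).comap p.1).subset fun H hH => ?_
  have hH' : H.index = n := hH
  have : H.FiniteIndex := ⟨hH' ▸ hn⟩
  let e : G ⧸ H ≃ Fin n := Finite.equivFinOfCardEq hH'
  refine ⟨((e.permCongrHom : Equiv.Perm (G ⧸ H) →* Equiv.Perm (Fin n)).comp (MulAction.toPermHom G (G ⧸ H)),
    e ((1 : G) : G ⧸ H)), ?_⟩
  ext g
  simp [Equiv.permCongrHom, QuotientGroup.eq]

theorem ext_cover (Q L : Subgroup G) {T : Set G} (hT : T.Finite) (h : ∀ x ∈ L, ∃ s ∈ T, s⁻¹ * x ∈ Q) :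
    Q.relIndex L ≠ 0 := by
  have := hT.to_subtype
  choose s hs hs' using h
  have : Finite (L ⧸ Q.subgroupOf L) := by
    refine Finite.of_injective (fun c : L ⧸ Q.subgroupOf L => (⟨s c.out c.out.2, hs _ _⟩ : T)) fun c c' hc => ?_
    have h1 : s c.out c.out.2 = s c'.out c'.out.2 := congrArg Subtype.val hc
    rw [← QuotientGroup.out_eq' c, ← QuotientGroup.out_eq' c', QuotientGroup.eq, Subgroup.mem_subgroupOf]
    have h2 := Q.mul_mem (Q.inv_mem (hs' _ c.out.2)) (hs' _ c'.out.2)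
    rw [h1] at h2
    simpa [mul_assoc] using h2
  exact Subgroup.index_ne_zero_of_finite

theorem ext_reps {Q L : Subgroup G} (h : Q.relIndex L ≠ 0) :
    ∃ T : Set G, T.Finite ∧ ∀ x ∈ L, ∃ s ∈ T, s⁻¹ * x ∈ Q := by
  have : (Q.subgroupOf L).FiniteIndex := ⟨h⟩
  exact ⟨Set.range fun c : L ⧸ Q.subgroupOf L => (c.out : G), Set.finite_range _, fun x hx =>
    ⟨_, ⟨((⟨x, hx⟩ : L) : L ⧸ Q.subgroupOf L), rfl⟩, Subgroup.mem_subgroupOf.1
      (QuotientGroup.eq.1 (QuotientGroup.out_eq' ((⟨x, hx⟩ : L) : L ⧸ Q.subgroupOf L)))⟩⟩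
/-- `P ≤ K` polycyclic of finite index; the conjugates `t ^ j P t ^ (-j) ≤ K` have the same index in the finitely
generated group `K`, so some `t ^ m`, `m > 0`, normalises `P`; `P ⊔ ⟨t ^ m⟩` has finite index in `K ⊔ ⟨t⟩` -/
theorem VPC.cyc {K : Subgroup G} (h : VPC K) {t : G} (ht : Nz t K) : VPC (K ⊔ Subgroup.zpowers t) := by
  have hfg : Group.FG K := (Group.fg_iff_subgroup_fg K).2 h.fg
  obtain ⟨P, h1, h2, h3⟩ := h
  have hn : ∀ j : ℤ, t ^ j ∈ Subgroup.normalizer (K : Set G) := fun j => zpow_mem (pca_nz.1 ht) j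
  let F : ℤ → Subgroup K := fun j => (P.comap (MulAut.conj (t ^ j)).toMonoidHom).subgroupOf K
  have hF : ∀ j, F j ∈ {H : Subgroup K | H.index = P.relIndex K} := fun j => by
    change (P.comap (MulAut.conj (t ^ j)).toMonoidHom).relIndex K = _
    rw [Subgroup.relIndex_comap]
    congr 1
    exact Subgroup.mem_normalizer_iff_map_conj_eq.1 (hn j)
  have hfin := (finite_index_eq (G := K) h3).to_subtype
  obtain ⟨m, hm, hz⟩ : ∃ m : ℤ, m ≠ 0 ∧ Nz (t ^ m) P := by
    obtain ⟨i, j, hij, he⟩ := Finite.exists_ne_map_eq_of_infinite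
      fun j : ℤ => (⟨F j, hF j⟩ : {H : Subgroup K | H.index = P.relIndex K})
    have he' : F i = F j := congrArg Subtype.val he
    have key : ∀ x ∈ K, t ^ i * x * (t ^ i)⁻¹ ∈ P ↔ t ^ j * x * (t ^ j)⁻¹ ∈ P := fun x hx =>
      SetLike.ext_iff.1 he' ⟨x, hx⟩
    refine ⟨j - i, sub_ne_zero.2 hij.symm, fun x => ?_⟩
    by_cases hx : x ∈ K
    · have := key _ ((Subgroup.mem_normalizer_iff''.1 (hn i) x).1 hx)
      simpa [zpow_sub, mul_assoc] using this
    · exact iff_of_false (fun h' => hx (h1 h')) fun h' => hx ((pca_nz.2 (hn _) x).2 (h1 h'))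
  refine ⟨P ⊔ Subgroup.zpowers (t ^ m), sup_le_sup h1 (Subgroup.zpowers_le_of_mem ⟨m, rfl⟩), PC.step _ _ h2 hz, ?_⟩
  obtain ⟨T, hT, hT'⟩ := ext_reps h3
  refine ext_cover _ _ (Set.Finite.image2 (fun (r : ℤ) (s : G) => t ^ r * s) (Set.finite_Ico 0 |m|) hT) fun x hx => ?_
  obtain ⟨n, hn'⟩ := pca_mem ht hx
  obtain ⟨s, hs, hs'⟩ := hT' _ ((Subgroup.mem_normalizer_iff''.1 (hn (n % m)) _).1 hn')
  refine ⟨_, Set.mem_image2_of_mem (a := n % m) ⟨Int.emod_nonneg _ hm, Int.emod_lt_abs _ hm⟩ hs, ?_⟩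
  have e : (t ^ (n % m) * s)⁻¹ * x =
      s⁻¹ * ((t ^ (n % m))⁻¹ * (x * (t ^ n)⁻¹) * t ^ (n % m)) * (t ^ m) ^ (n / m) := by
    have : t ^ (n % m) * (t ^ m) ^ (n / m) = t ^ n := by
      rw [← zpow_mul, ← zpow_add, Int.emod_add_mul_ediv]
    simp only [mul_assoc, this, mul_inv_rev, inv_mul_cancel, mul_one]
  rw [e]
  exact mul_mem (Subgroup.mem_sup_left hs') (Subgroup.mem_sup_right ⟨n / m, rfl⟩)

/-- induction over a finite generating set: `K ⊔ closure T` contains all commutators, hence is normal -/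
theorem vpc_ext [Group.FG G] (K : Subgroup G) (hK : ∀ a b : G, ⁅a, b⁆ ∈ K) (h : IsVirtuallyPolycyclic K) :
    IsVirtuallyPolycyclic G := by
  classical
  obtain ⟨S, hS⟩ := (‹Group.FG G›).out
  have key : ∀ T : Finset G, VPC (K ⊔ Subgroup.closure (T : Set G)) := by
    intro T
    induction T using Finset.induction_on with
    | empty => simpa using (vpc_iff K).1 h
    | insert a T _ ih =>
      rw [Finset.coe_insert, Set.insert_eq, Subgroup.closure_union, ← Subgroup.zpowers_eq_closure,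
        sup_comm (Subgroup.zpowers a), ← sup_assoc]
      refine ih.cyc fun x => ?_
      have : a * x * a⁻¹ = ⁅a, x⁆ * x := by
        rw [commutatorElement_def, inv_mul_cancel_right]
      rw [this, Subgroup.mul_mem_cancel_left _ (Subgroup.mem_sup_left (hK a x))]
  have := key S
  rw [hS, sup_top_eq] at this
  exact vpc_top_iff.2 this

end Crest.Agent.R182
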