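import Crest.Agent.R182.D.Walk

/-! R182/D: finite dimensionality of `LH S` (reproducing kernel argument).
For a finite-dimensional `W ≤ LH S` the form `β f g = m (Gm S f g)` is symmetric, bilinear, and
`(f (x s) - f x) ^ 2 ≤ K β f f` (`key` for `LH.shift f x`, `inv`), so it is positive definite (`K > 0` or `W = 0`).  Take a
`β`-orthogonal basis `v i` (`LinearMap.BilinForm.exists_orthogonal_basis`), `a i = v i (x s) - v i x`,
`f = ∑ (a i / β i i) • v i`: `∑ a i ^ 2 / β i i ≤ K`.  Average over `s` and apply `m`: `finrank W ≤ K`.  Conclude with `rank_le`. -/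

set_option autoImplicit false
set_option linter.unusedVariables false
set_option linter.unusedSectionVars false
open Set Filter Topology Crest.GroupTheory
open scoped Pointwise commutatorElement

noncomputable section
namespace Crest.Agent.R182

open Function
variable {G : Type*} [Group G] {S : Finset G}

/-- the carré du champ as a bilinear map -/
def dimGm (S : Finset G) : (G → ℝ) →ₗ[ℝ] (G → ℝ) →ₗ[ℝ] (G → ℝ) :=
  LinearMap.mk₂ ℝ (Gm S)
    (fun f f' g => funext fun x => by
      simp only [Gm, Pi.add_apply, ← add_div, ← Finset.sum_add_distrib]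
      exact congrArg (· / _) (Finset.sum_congr rfl fun s _ => by ring))
    (fun c f g => funext fun x => by
      simp only [Gm, Pi.smul_apply, smul_eq_mul, ← mul_div_assoc, Finset.mul_sum]
      exact congrArg (· / _) (Finset.sum_congr rfl fun s _ => by ring))
    (fun f g g' => funext fun x => by
      simp only [Gm, Pi.add_apply, ← add_div, ← Finset.sum_add_distrib]
      exact congrArg (· / _) (Finset.sum_congr rfl fun s _ => by ring))
    (fun c f g => funext fun x => by
      simp only [Gm, Pi.smul_apply, smul_eq_mul, ← mul_div_assoc, Finset.mul_sum]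
      exact congrArg (· / _) (Finset.sum_congr rfl fun s _ => by ring))

theorem dim_key {K : ℝ} {m : (G → ℝ) →ₗ[ℝ] ℝ} (h : Mean S K m) {f : G → ℝ} (hf : f ∈ LH S) (x : G) {s : G}
    (hs : s ∈ S) : (f (x * s) - f x) ^ 2 ≤ K * m (Gm S f f) := by
  have h1 := h.key _ (LH.shift hf x) s hs
  rw [← h.inv _ x (LH.bd_Gm hf hf)]
  convert h1 using 3
  funext y
  simp only [Gm, mul_assoc, sub_sub_sub_cancel_right]

theorem dim_pos (hS : Gen S) {K : ℝ} {m : (G → ℝ) →ₗ[ℝ] ℝ} (h : Mean S K m) {f : G → ℝ} (hf : f ∈ LH S)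
    (h0 : f ≠ 0) : 0 < m (Gm S f f) := by
  by_contra hle
  have h1 : ∀ x, ∀ s ∈ S, f (x * s) = f x := fun x s hs =>
    sub_eq_zero.1 (pow_eq_zero_iff two_ne_zero |>.1 (le_antisymm ((dim_key h hf x hs).trans
      (mul_nonpos_of_nonneg_of_nonpos h.K_nonneg (not_lt.1 hle))) (sq_nonneg _)))
  have h2 : ∀ (n : ℕ), ∀ g ∈ (S : Set G) ^ n, f g = 0 := by
    intro n
    induction n with
    | zero =>
      intro g hg
      rw [pow_zero, Set.mem_one] at hg
      rw [hg]
      exact hf.2.2
    | succ n ih =>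
      rw [pow_succ]
      rintro _ ⟨g, hg, s, hs, rfl⟩
      exact (h1 g s hs).trans (ih g hg)
  exact h0 (funext fun g => (hS.gen g).elim fun n hn => h2 n g hn)
theorem Mean.finrank_le (hS : Gen S) {K : ℝ} {m : (G → ℝ) →ₗ[ℝ] ℝ} (h : Mean S K m) (W : Submodule ℝ (G → ℝ))
    (hW : W ≤ LH S) [FiniteDimensional ℝ W] : (Module.finrank ℝ W : ℝ) ≤ K := by
  classical
  let β : LinearMap.BilinForm ℝ W := ((dimGm S).compr₂ m).compl₁₂ W.subtype W.subtype
  have hβ : ∀ f g : W, β f g = m (Gm S f g) := fun f g => rfl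
  have hsym : LinearMap.IsSymm β := ⟨fun f g => by
    rw [RingHom.id_apply, hβ, hβ]
    congr 1
    funext x
    simp only [Gm, mul_comm]⟩
  obtain ⟨v, hv⟩ := LinearMap.BilinForm.exists_orthogonal_basis hsym
  have hpos : ∀ i, 0 < β (v i) (v i) := fun i =>
    dim_pos hS h (hW (v i).2) fun h0 => v.ne_zero i (Subtype.ext h0)
  have h1 : ∀ x, ∀ s ∈ S, ∑ i, ((v i : G → ℝ) (x * s) - (v i : G → ℝ) x) ^ 2 / β (v i) (v i) ≤ K := by
    intro x s hs
    set a : Fin (Module.finrank ℝ W) → ℝ := fun i => (v i : G → ℝ) (x * s) - (v i : G → ℝ) x with ha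
    let f : W := ∑ i, (a i / β (v i) (v i)) • v i
    have e1 : (f : G → ℝ) (x * s) - (f : G → ℝ) x = ∑ i, a i ^ 2 / β (v i) (v i) := by
      simp only [f, Submodule.coe_sum, Submodule.coe_smul, Finset.sum_apply, Pi.smul_apply, smul_eq_mul,
        ← Finset.sum_sub_distrib]
      exact Finset.sum_congr rfl fun i _ => by rw [← mul_sub]; ring
    have e2 : β f f = ∑ i, a i ^ 2 / β (v i) (v i) := by
      simp only [f, map_sum, map_smul, LinearMap.sum_apply, LinearMap.smul_apply, smul_eq_mul]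
      refine Finset.sum_congr rfl fun i _ => ?_
      rw [Finset.sum_eq_single i (fun j _ hj => by rw [show β (v j) (v i) = 0 from hv hj, mul_zero]) (by simp)]
      have := (hpos i).ne'
      field_simp
    have e3 := dim_key h (hW f.2) x hs
    rw [← hβ, e1, e2] at e3
    change ∑ i, a i ^ 2 / β (v i) (v i) ≤ K
    by_contra hlt
    have := h.K_nonneg
    nlinarith [not_le.1 hlt]
  have h2 : ∀ x, (∑ i, (β (v i) (v i))⁻¹ • Gm S (v i) (v i)) x =
      (∑ s ∈ S, ∑ i, ((v i : G → ℝ) (x * s) - (v i : G → ℝ) x) ^ 2 / β (v i) (v i)) / S.card := fun x => by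
    rw [Finset.sum_comm, Finset.sum_div, Finset.sum_apply]
    refine Finset.sum_congr rfl fun i _ => ?_
    simp only [Pi.smul_apply, smul_eq_mul, Gm, ← Finset.sum_div, sq]
    ring
  have h3 : ∀ x, (∑ i, (β (v i) (v i))⁻¹ • Gm S (v i) (v i)) x ≤ K := fun x => by
    rw [h2, div_le_iff₀ hS.card_pos]
    exact (Finset.sum_le_card_nsmul _ _ _ (h1 x)).trans_eq (by rw [nsmul_eq_mul, mul_comm])
  have h4 := h.le _ K ⟨K, fun x => by
    rw [abs_of_nonneg]
    · exact h3 x
    · rw [h2]
      exact div_nonneg (Finset.sum_nonneg fun s _ => Finset.sum_nonneg fun i _ =>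
        div_nonneg (sq_nonneg _) (hpos i).le) (Nat.cast_nonneg _)⟩ h3
  simp only [map_sum, map_smul, smul_eq_mul, ← hβ, inv_mul_cancel₀ (hpos _).ne'] at h4
  simpa using h4

theorem Mean.finiteDimensional (hS : Gen S) {K : ℝ} {m : (G → ℝ) →ₗ[ℝ] ℝ} (h : Mean S K m) :
    FiniteDimensional ℝ (LH S) := by
  have : Module.rank ℝ (LH S) ≤ (⌊K⌋₊ : ℕ) := by
    refine rank_le fun s hs => Nat.le_floor ?_
    have h1 := h.finrank_le hS ((Submodule.span ℝ (s : Set (LH S))).map (LH S).subtype) (Submodule.map_subtype_le _ _)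
    rwa [Submodule.finrank_map_subtype_eq, finrank_span_finset_eq_card hs] at h1
  exact Module.rank_lt_aleph0_iff.1 (this.trans_lt Cardinal.natCast_lt_aleph0)

end Crest.Agent.R182
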