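import Crest.Agent.R182.D.Walk

/-! R182/D: existence of a nonzero Lipschitz harmonic function. -/

set_option autoImplicit false
set_option linter.unusedVariables false
set_option linter.unusedSectionVars false
open Set Filter Topology Crest.GroupTheory
open scoped Pointwise commutatorElement

noncomputable section
namespace Crest.Agent.R182

open Function
variable {G : Type*} [Group G] {S : Finset G}

theorem ea_ip_sum {ν : G → ℝ} (h : ν.HasFiniteSupport) {ι : Type*} (T : Finset ι) (φ : ι → G → ℝ) :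
    ip ν (fun y => ∑ i ∈ T, φ i y) = ∑ i ∈ T, ip ν (φ i) := by
  classical
  induction T using Finset.induction_on with
  | empty => simp [ip]
  | insert a T ha ih =>
    simp only [Finset.sum_insert ha]
    rw [← ih, ← ip_add h]
    rfl

theorem ea_ip_Av {ν : G → ℝ} (h : ν.HasFiniteSupport) (φ : G → ℝ) :
    ip ν (Av S φ) = (∑ s ∈ S, ip ν fun y => φ (y * s)) / S.card := by
  have e : Av S φ = (S.card : ℝ)⁻¹ • fun y => ∑ s ∈ S, φ (y * s) := by
    funext y; simp [Av, div_eq_inv_mul]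
  rw [e, ip_smul, ea_ip_sum h, div_eq_inv_mul]

theorem ea_shift (ξ : G → ℝ) (s : G) : ip (fun y => ξ (y * s)) (fun y => ξ (y * s)) = ip ξ ξ := by
  have := ip_shift_right ξ (fun y => ξ (y * s)) s⁻¹
  simpa using this

theorem ea_sq (ξ : G → ℝ) : ∑ᶠ y, ξ y ^ 2 = ip ξ ξ := by simp only [ip, sq]

theorem ea_fs_sub {ξ ξ' : G → ℝ} (h : ξ.HasFiniteSupport) (h' : ξ'.HasFiniteSupport) :
    (ξ - ξ').HasFiniteSupport :=
  (Set.Finite.union h h').subset (support_sub ξ ξ')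

theorem ea_En (hS : Gen S) {ξ : G → ℝ} (hξ : ξ.HasFiniteSupport) :
    En S ξ = 2 * S.card * (ip ξ ξ - ip ξ (Av S ξ)) := by
  have h1 : ∀ s, ∑ᶠ y, (ξ (y * s) - ξ y) ^ 2 = 2 * ip ξ ξ - 2 * ip ξ fun y => ξ (y * s) := by
    intro s
    have := ea_sq ((fun y => ξ (y * s)) - ξ)
    rw [ip_sub_left (fs_mul_right hξ s) hξ, ip_sub (fs_mul_right hξ s), ip_sub hξ, ea_shift,
      ip_comm (fun y => ξ (y * s)) ξ] at this
    simp only [Pi.sub_apply] at this
    rw [this]; ring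
  have h2 := hS.card_pos
  rw [En, ea_ip_Av hξ]
  simp only [h1, Finset.sum_sub_distrib, Finset.sum_const, nsmul_eq_mul, ← Finset.mul_sum]
  field_simp

/-- `En ξ = 2 |S| ip ξ (ξ - Av ξ)`; with `ζ = ξ - Av ξ`: `En ξ - En (Av ξ) = 2 |S| ip ζ (ζ + Av ζ) = ∑ s, ∑ᶠ (ζ y + ζ (y s))² ≥ 4 ∑ᶠ ζ²`
(the term `s = 1`) -/
theorem En_Av (hS : Gen S) {ξ : G → ℝ} (hξ : ξ.HasFiniteSupport) :
    En S (Av S ξ) + 4 * ∑ᶠ y, (ξ y - Av S ξ y) ^ 2 ≤ En S ξ := by
  classical
  have hA := fs_Av (S := S) hξ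
  have hζ := ea_fs_sub hξ hA
  set ζ := ξ - Av S ξ with hζdef
  have h0 : ∑ᶠ y, (ξ y - Av S ξ y) ^ 2 = ip ζ ζ := ea_sq ζ
  have hN : 0 ≤ ip ζ ζ := finsum_nonneg fun y => mul_self_nonneg _
  have h1 : ∀ s, 0 ≤ ip ζ ζ + ip ζ fun y => ζ (y * s) := by
    intro s
    have := ip_sq_le hζ (fs_mul_right hζ s)
    rw [ea_sq, ea_sq, ea_shift, ← sq] at this
    linarith [(abs_le_of_sq_le_sq' this hN).1]
  have h2 : ip ζ ζ + ip ζ (fun y => ζ (y * 1)) ≤ ∑ s ∈ S, (ip ζ ζ + ip ζ fun y => ζ (y * s)) :=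
    Finset.single_le_sum (f := fun s => ip ζ ζ + ip ζ fun y => ζ (y * s)) (fun s _ => h1 s) hS.one
  simp only [mul_one, Finset.sum_add_distrib, Finset.sum_const, nsmul_eq_mul] at h2
  have hc := hS.card_pos
  have h3 : ∑ s ∈ S, ip ζ (fun y => ζ (y * s)) = S.card * ip ζ (Av S ζ) := by
    rw [ea_ip_Av hζ]; field_simp
  have h4 : Av S ζ = Av S ξ - Av S (Av S ξ) := by
    funext y; simp only [hζdef, Av, Pi.sub_apply, Finset.sum_sub_distrib, sub_div]
  have h5 : ip ζ ζ + ip ζ (Av S ζ) = (ip ξ ξ - ip ξ (Av S ξ)) -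
      (ip (Av S ξ) (Av S ξ) - ip (Av S ξ) (Av S (Av S ξ))) := by
    rw [h4, hζdef, ip_sub_left hξ hA, ip_sub_left hξ hA, ip_sub hξ, ip_sub hξ, ip_sub hA, ip_sub hA,
      ip_comm (Av S ξ) ξ, ← ip_Av hS hξ (Av S ξ)]
    ring
  rw [h0, ea_En hS hξ, ea_En hS hA]
  have h6 : ip ζ (fun y => ζ y) = ip ζ ζ := rfl
  rw [h3, h6, ← mul_add, h5] at h2
  linarith

theorem ea_step {ξ : G → ℝ} (hξ : ξ.HasFiniteSupport) (x : G) {s : G} (hs : s ∈ S) :
    |ξ (x * s) - ξ x| ≤ √(En S ξ) := by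
  refine Real.abs_le_sqrt ?_
  have h1 : (fun y => (ξ (y * s) - ξ y) ^ 2).HasFiniteSupport :=
    (ea_fs_sub (fs_mul_right hξ s) hξ).subset fun y hy h => hy (by
      simp only [Pi.sub_apply] at h; simp [h])
  have h2 : (ξ (x * s) - ξ x) ^ 2 ≤ ∑ᶠ y, (ξ (y * s) - ξ y) ^ 2 :=
    single_le_finsum (f := fun y => (ξ (y * s) - ξ y) ^ 2) x h1 fun y => sq_nonneg _
  exact h2.trans (Finset.single_le_sum (f := fun s => ∑ᶠ y, (ξ (y * s) - ξ y) ^ 2)
    (fun s _ => finsum_nonneg fun y => sq_nonneg _) hs)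

theorem ea_lip {ξ : G → ℝ} (hξ : ξ.HasFiniteSupport) (x : G) (n : ℕ) :
    ∀ g ∈ (S : Set G) ^ n, |ξ (x * g) - ξ x| ≤ n * √(En S ξ) := by
  induction n with
  | zero => intro g hg; rw [pow_zero, Set.mem_one] at hg; simp [hg]
  | succ n ih =>
    intro g hg
    rw [pow_succ] at hg
    obtain ⟨a, ha, s, hs, rfl⟩ := hg
    have h1 := ea_step (S := S) hξ (x * a) hs
    have h2 := ih a ha
    have h3 := abs_sub_le (ξ (x * a * s)) (ξ (x * a)) (ξ x)
    simp only [← mul_assoc]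
    push_cast
    linarith

theorem ea_fin (S : Finset G) (k : ℕ) : ((S : Set G) ^ k).Finite := by
  classical
  rw [← Finset.coe_pow]; exact Finset.finite_toSet _

theorem ea_new [Infinite G] (hS : Gen S) (k : ℕ) : ∃ z ∈ (S : Set G) ^ (k + 1), z ∉ (S : Set G) ^ k := by
  by_contra h
  push Not at h
  have h1 : ∀ n, (S : Set G) ^ n ⊆ (S : Set G) ^ k := by
    intro n
    induction n with
    | zero => rw [pow_zero]; exact Set.one_subset.2 (Set.one_mem_pow (Finset.mem_coe.2 hS.one))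
    | succ n ih =>
      intro g hg
      rw [pow_succ] at hg
      refine h g ?_
      rw [pow_succ]
      exact Set.mul_subset_mul_right ih hg
  refine Set.infinite_univ ((ea_fin S k).subset fun g _ => ?_)
  obtain ⟨n, hn⟩ := hS.gen g
  exact h1 n hn

/-- a point `y` with `pw k y ≥ 1 / |S^k|`, a point `z ∈ S^(k+1) \ S^k`, and `|ξ (y g) - ξ y| ≤ n √(En ξ)` for `g ∈ S ^ n` -/
theorem En_pw_ge [Infinite G] (hS : Gen S) (k : ℕ) :
    1 ≤ ((2 * k + 1) * ((S : Set G) ^ k).ncard : ℝ) ^ 2 * En S (pw S k) := by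
  have hf : ((S : Set G) ^ k).Finite := ea_fin S k
  obtain ⟨z, hz, hz'⟩ := ea_new hS k
  have hz0 : pw S k z = 0 := by
    by_contra h; exact hz' (pw_supp hS k h)
  have hinv : ((S : Set G))⁻¹ = S := by
    ext s
    simp only [Set.mem_inv, Finset.mem_coe]
    exact ⟨fun h => inv_inv s ▸ hS.inv _ h, hS.inv s⟩
  have h1 : ∀ y ∈ hf.toFinset, pw S k y ≤ (2 * k + 1) * √(En S (pw S k)) := by
    intro y hy
    rw [Set.Finite.mem_toFinset] at hy
    have h2 : y⁻¹ ∈ (S : Set G) ^ k := by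
      rw [← hinv, inv_pow]; exact Set.inv_mem_inv.2 hy
    have h3 : y⁻¹ * z ∈ (S : Set G) ^ (k + (k + 1)) := by
      rw [pow_add]; exact Set.mul_mem_mul h2 hz
    have h4 := ea_lip (fs_pw S k) y _ _ h3
    rw [mul_inv_cancel_left, hz0, zero_sub, abs_neg] at h4
    push_cast at h4
    linarith [le_abs_self (pw S k y)]
  have h2 := ip_pw_one hS k
  simp only [ip, mul_one] at h2
  rw [finsum_eq_sum_of_support_subset (s := hf.toFinset) _ (by simpa using pw_supp hS k)] at h2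
  have h3 := Finset.sum_le_card_nsmul _ _ _ h1
  rw [h2, nsmul_eq_mul, ← Set.ncard_eq_toFinset_card _ hf] at h3
  have h4 : 0 ≤ En S (pw S k) := Finset.sum_nonneg fun s _ => finsum_nonneg fun y => sq_nonneg _
  have h5 := pow_le_pow_left₀ zero_le_one h3 2
  rw [one_pow, mul_pow, mul_pow, Real.sq_sqrt h4] at h5
  exact h5.trans (le_of_eq (by ring))

/-- otherwise `En (pw k)` decays exponentially -/
theorem exists_almost {d : ℕ} [Infinite G] (hS : Gen S) (hG : PG G d) {c : ℝ} (hc : 0 < c) :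
    ∃ ξ : G → ℝ, ξ.HasFiniteSupport ∧ 0 < En S ξ ∧ ∑ᶠ y, (ξ y - Av S ξ y) ^ 2 ≤ c ^ 2 * En S ξ := by
  by_contra h
  push Not at h
  have h0 : ∀ k, 0 < En S (pw S k) := by
    intro k
    by_contra h1
    have := En_pw_ge hS k
    nlinarith [mul_nonneg (sq_nonneg ((2 * k + 1) * ((S : Set G) ^ k).ncard : ℝ)) (neg_nonneg.2 (not_lt.1 h1))]
  have h1 : ∀ k, En S (pw S (k + 1)) ≤ (1 - 4 * c ^ 2) * En S (pw S k) := by
    intro k
    have h2 := En_Av hS (fs_pw S k)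
    have h3 := h _ (fs_pw S k) (h0 k)
    rw [pw_succ]
    linarith
  set q := 1 - 4 * c ^ 2 with hq
  have hq0 : 0 < q := (mul_pos_iff_of_pos_right (h0 0)).1 ((h0 1).trans_le (h1 0))
  have hq1 : q < 1 := by rw [hq]; nlinarith
  have h2 : ∀ k, En S (pw S k) ≤ q ^ k * En S (pw S 0) := by
    intro k
    induction k with
    | zero => simp
    | succ k ih => exact (h1 k).trans (by rw [pow_succ', mul_assoc]; exact mul_le_mul_of_nonneg_left ih hq0.le)
  obtain ⟨C, hC⟩ := hG S S.finite_toSet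
  have h3 := ((tendsto_pow_const_mul_const_pow_of_abs_lt_one (2 * d + 2)
    (abs_lt.2 ⟨by linarith, hq1⟩)).comp (tendsto_add_atTop_nat 1)).const_mul (4 * C ^ 2 * En S (pw S 0) / q)
  rw [mul_zero] at h3
  obtain ⟨k, hk⟩ := (h3.eventually (gt_mem_nhds one_pos)).exists
  refine absurd hk (not_lt.2 ((En_pw_ge hS k).trans ?_))
  have h4 : (((S : Set G) ^ k).ncard : ℝ) ≤ C * (k + 1) ^ d := by exact_mod_cast hC k
  have h5 : ((2 * k + 1) * ((S : Set G) ^ k).ncard : ℝ) ≤ (2 * (k + 1)) * (C * (k + 1) ^ d) :=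
    mul_le_mul (by linarith) h4 (by positivity) (by positivity)
  refine (mul_le_mul (pow_le_pow_left₀ (by positivity) h5 2) (h2 k) (h0 k).le (by positivity)).trans (le_of_eq ?_)
  simp only [Function.comp]
  push_cast
  field_simp
  ring

/-- `u x = ip H (fun y => ξ (y x) - ξ y) / En ξ` with `H y = ξ (y s₀) - ξ y`, `s₀` maximising `∑ᶠ H²` -/
theorem exists_almost_harm (hS : Gen S) {c : ℝ} (hc : 0 < c) {ξ : G → ℝ} (hξ : ξ.HasFiniteSupport) (h0 : 0 < En S ξ)
    (h : ∑ᶠ y, (ξ y - Av S ξ y) ^ 2 ≤ c ^ 2 * En S ξ) :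
    ∃ u : G → ℝ, u 1 = 0 ∧ (∀ x, ∀ s ∈ S, |u (x * s) - u x| ≤ 1) ∧ (∀ x, |Av S u x - u x| ≤ c) ∧
      1 / (S.card : ℝ) ≤ ∑ s ∈ S, |u s| := by
  let e : G → ℝ := fun s => ∑ᶠ y, (ξ (y * s) - ξ y) ^ 2
  have he0 : ∀ s, 0 ≤ e s := fun s => finsum_nonneg fun _ => sq_nonneg _
  have he : ∀ s ∈ S, e s ≤ En S ξ := fun s hs => Finset.single_le_sum (f := e) (fun s _ => he0 s) hs
  obtain ⟨s₀, hs₀, hmax⟩ := S.exists_max_image e ⟨1, hS.one⟩
  have hfs : ∀ {φ ψ : G → ℝ}, φ.HasFiniteSupport → ψ.HasFiniteSupport → (fun y => φ y - ψ y).HasFiniteSupport :=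
    fun h h' => by fun_prop
  have hH : (fun y => ξ (y * s₀) - ξ y).HasFiniteSupport := hfs (fs_mul_right hξ s₀) hξ
  let L : (G → ℝ) →ₗ[ℝ] ℝ :=
    { toFun := ip fun y => ξ (y * s₀) - ξ y
      map_add' := ip_add hH
      map_smul' := fun c φ => ip_smul _ φ c }
  have hL : ∀ (φ : G → ℝ) (x : G) (b : ℝ), φ.HasFiniteSupport → 0 ≤ b → ∑ᶠ y, φ y ^ 2 ≤ b ^ 2 * En S ξ →
      |L (fun y => φ (y * x)) / En S ξ| ≤ b := fun φ x b hφ hb hle => by
    rw [abs_div, abs_of_pos h0, div_le_iff₀ h0]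
    refine abs_le_of_sq_le_sq ((ip_sq_le hH (fs_mul_right hφ x)).trans ?_) (by positivity)
    have h1 : ∑ᶠ y, φ (y * x) ^ 2 = ∑ᶠ y, φ y ^ 2 := finsum_comp_equiv (Equiv.mulRight x) (f := fun y => φ y ^ 2)
    rw [h1]
    calc _ ≤ En S ξ * (b ^ 2 * En S ξ) :=
          mul_le_mul (he s₀ hs₀) hle (finsum_nonneg fun _ => sq_nonneg _) h0.le
      _ = _ := by ring
  have hc := hS.card_pos
  refine ⟨fun x => L (fun y => ξ (y * x) - ξ y) / En S ξ, ?_, fun x s hs => ?_, fun x => ?_, ?_⟩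
  · simp only [mul_one, sub_self]
    rw [show (fun _ : G => (0 : ℝ)) = 0 from rfl, map_zero, zero_div]
  · have := hL (fun y => ξ (y * s) - ξ y) x 1 (hfs (fs_mul_right hξ s) hξ) zero_le_one (by simpa using he s hs)
    rw [← sub_div, ← map_sub]
    convert this using 4
    funext y
    simp [mul_assoc]
  · have := hL (fun y => ξ y - Av S ξ y) x c (hfs hξ (fs_Av hξ)) ‹0 < c›.le h
    rw [abs_sub_comm]
    convert this using 2
    have e1 : (fun y => ξ (y * x) - Av S ξ (y * x)) = (fun y => ξ (y * x) - ξ y) -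
        (S.card : ℝ)⁻¹ • ∑ s ∈ S, fun y => ξ (y * (x * s)) - ξ y := by
      funext y
      simp only [Av, Pi.sub_apply, Pi.smul_apply, Finset.sum_apply, smul_eq_mul, Finset.sum_sub_distrib,
        Finset.sum_const, nsmul_eq_mul, mul_assoc]
      field_simp
      ring
    rw [e1, map_sub, map_smul, map_sum, Av, ← Finset.sum_div, smul_eq_mul]
    ring
  · refine le_trans ?_ (Finset.single_le_sum (f := fun s => |L (fun y => ξ (y * s) - ξ y) / En S ξ|)
      (fun s _ => abs_nonneg _) hs₀)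
    have h1 : L (fun y => ξ (y * s₀) - ξ y) = e s₀ := finsum_congr fun y => (sq _).symm
    have h2 : En S ξ ≤ S.card * e s₀ := by
      rw [← nsmul_eq_mul]
      exact Finset.sum_le_card_nsmul S e _ hmax
    rw [h1, abs_of_nonneg (div_nonneg (he0 _) h0.le), div_le_div_iff₀ hc h0]
    linarith

/-- compactness in the product topology (`isCompact_univ_pi`, decreasing sequence of nonempty closed sets) -/
theorem exists_LH {d : ℕ} [Infinite G] (hS : Gen S) (hG : PG G d) : ∃ f ∈ LH S, f ≠ 0 := by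
  let F : ℕ → Set (G → ℝ) := fun n => {u | u 1 = 0 ∧ (∀ x, ∀ s ∈ S, |u (x * s) - u x| ≤ 1) ∧
    (∀ x, |Av S u x - u x| ≤ 1 / ((n : ℝ) + 1)) ∧ 1 / (S.card : ℝ) ≤ ∑ s ∈ S, |u s|}
  have hcl : ∀ n, IsClosed (F n) := fun n => by
    simp only [F, Av, ofPred_and, ofPred_forall]
    refine (isClosed_eq (by fun_prop) (by fun_prop)).inter (IsClosed.inter (isClosed_iInter fun x =>
      isClosed_iInter fun s => isClosed_iInter fun _ => isClosed_le (by fun_prop) (by fun_prop))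
      (IsClosed.inter (isClosed_iInter fun x => isClosed_le (by fun_prop) (by fun_prop))
        (isClosed_le (by fun_prop) (by fun_prop))))
  have hne : ∀ n, (F n).Nonempty := fun n => by
    have hc : (0 : ℝ) < 1 / ((n : ℝ) + 1) := by positivity
    obtain ⟨ξ, h1, h2, h3⟩ := exists_almost hS hG hc
    exact exists_almost_harm hS hc h1 h2 h3
  have hdec : ∀ n, F (n + 1) ⊆ F n := fun n u hu =>
    ⟨hu.1, hu.2.1, fun x => (hu.2.2.1 x).trans (by gcongr; omega), hu.2.2.2⟩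
  choose N hN using hS.gen
  have hbd : ∀ u ∈ F 0, ∀ n : ℕ, ∀ g ∈ (S : Set G) ^ n, |u g| ≤ n := fun u hu n => by
    induction n with
    | zero =>
      intro g hg
      rw [pow_zero, Set.mem_one] at hg
      simp [hg, hu.1]
    | succ n ih =>
      intro g hg
      rw [pow_succ] at hg
      obtain ⟨x, hx, s, hs, rfl⟩ := hg
      have h1 := hu.2.1 x s hs
      have h2 := ih x hx
      have h3 := abs_sub_abs_le_abs_sub (u (x * s)) (u x)
      push_cast
      linarith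
  have hco : IsCompact (F 0) :=
    (isCompact_univ_pi fun g => isCompact_Icc (a := -(N g : ℝ)) (b := N g)).of_isClosed_subset (hcl 0)
      fun u hu g _ => abs_le.1 (hbd u hu _ g (hN g))
  obtain ⟨u, hu⟩ := IsCompact.nonempty_iInter_of_sequence_nonempty_isCompact_isClosed F hdec hne hco hcl
  rw [mem_iInter] at hu
  refine ⟨u, ⟨fun x => ?_, ⟨1, (hu 0).2.1⟩, (hu 0).1⟩, ?_⟩
  · exact sub_eq_zero.1 (abs_nonpos_iff.1
      (ge_of_tendsto' tendsto_one_div_add_atTop_nhds_zero_nat fun n => (hu n).2.2.1 x))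
  · rintro rfl
    have h1 := (hu 0).2.2.2
    have h2 := one_div_pos.2 hS.card_pos
    simp only [Pi.zero_apply, abs_zero, Finset.sum_const_zero] at h1
    linarith

end Crest.Agent.R182
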