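import Crest.Agent.R182.D.Defs

/-! R182/D: the commutator argument.
`A = 2 ^ (d + 1)`, `ε = 1 / (32 A)`.  Dependent choice gives `h 0 ∈ T`, `h (k+1) = ⁅e k, h k⁆`, `e k ∈ T`, so
`0 < δ (h (k+1)) ≤ 2 ε δ (h k)` and `h k ∈ T' ^ (3 * 2 ^ k)` for `T' = T ∪ T⁻¹ ∪ {1}` (`h k, (h k)⁻¹ ∈ T' ^ (3 * 2 ^ k - 2)`).
Induction on `m`, for all `j`: there is a finset `W` with `W.card = A ^ m`, `W ⊆ T' ^ (3 A (2 ^ (j+m) - 2 ^ j))` and
`δ w ≤ 2 A δ (h j)` on `W` (`W(j, m+1) = {h j ^ i * w | i < A, w ∈ W(j+1, m)}`; injective because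
`δ (h j ^ a) ≥ δ (h j) / 2` for `0 < a < A` and `δ (w' w⁻¹) ≤ 4 A δ (h (j+1)) ≤ δ (h j) / 4`).
Then `A ^ m ≤ C (3 A 2 ^ m + 1) ^ d` for all `m`, absurd. -/

set_option autoImplicit false
set_option linter.unusedVariables false
set_option linter.unusedSectionVars false
open Set Filter Topology Crest.GroupTheory
open scoped Pointwise commutatorElement

noncomputable section
namespace Crest.Agent.R182

variable {G : Type*} [Group G]
theorem Len.comm_pow_le {δ : G → ℝ} (hδ : Len δ) (g : G) (a : ℕ) : δ (g ^ a) ≤ a * δ g := by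
  induction a with
  | zero => simp [hδ.one]
  | succ a ih =>
    rw [pow_succ]
    refine (hδ.mul _ _).trans ?_
    push_cast
    linarith

theorem comm_mul_mem {S : Set G} {m n : ℕ} {x y : G} (hx : x ∈ S ^ m) (hy : y ∈ S ^ n) : x * y ∈ S ^ (m + n) := by
  rw [pow_add]
  exact Set.mul_mem_mul hx hy

theorem comm_pow_mem {S : Set G} {m : ℕ} {x : G} (hx : x ∈ S ^ m) (i : ℕ) : x ^ i ∈ S ^ (m * i) := by
  rw [pow_mul]
  exact Set.pow_mem_pow hx


theorem Len.no_chain {d : ℕ} (hG : PG G d) {δ : G → ℝ} (hδ : Len δ) (T : Finset G)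
    (hT : ∀ t ∈ T, δ t ≤ 1 / (32 * 2 ^ (d + 1))) (P : G → Prop) (h0 : ∃ t ∈ T, P t)
    (hP : ∀ h, P h → 0 < δ h ∧ ∃ e ∈ T, P ⁅e, h⁆) : False := by
  classical
  obtain ⟨A, hA⟩ : ∃ A : ℕ, A = 2 ^ (d + 1) := ⟨_, rfl⟩
  have hA' : (2 : ℝ) ^ (d + 1) = A := by rw [hA]; push_cast; rfl
  have hA1 : 1 ≤ A := hA ▸ Nat.one_le_two_pow
  have hAr : (1 : ℝ) ≤ A := by exact_mod_cast hA1
  rw [hA'] at hT
  obtain ⟨t₀, ht₀, hp₀⟩ := h0
  choose e he hpe using fun h : {h // P h} => (hP h.1 h.2).2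
  let H : ℕ → {h // P h} := fun k => Nat.rec ⟨t₀, hp₀⟩ (fun _ x => ⟨⁅e x, x.1⁆, hpe x⟩) k
  obtain ⟨h, hh⟩ : ∃ h : ℕ → G, ∀ k, h k = (H k).1 := ⟨_, fun _ => rfl⟩
  have h0 : h 0 ∈ T := by rw [hh]; exact ht₀
  have hs : ∀ k, ∃ x ∈ T, h (k + 1) = ⁅x, h k⁆ := fun k => ⟨e (H k), he _, by rw [hh, hh]⟩
  have hpos : ∀ k, 0 < δ (h k) := fun k => by rw [hh]; exact (hP _ (H k).2).1
  clear hh H hpe he e hP
  have hdec : ∀ k, 16 * A * δ (h (k + 1)) ≤ δ (h k) := fun k => by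
    obtain ⟨x, hx, e⟩ := hs k
    have h1 := hδ.comm x (h k)
    have h2 := hT x hx
    rw [le_div_iff₀ (by positivity)] at h2
    have h3 := hpos k
    rw [e]
    nlinarith [mul_le_mul_of_nonneg_left h1 (show (0 : ℝ) ≤ 16 * A by positivity)]
  have hsm : ∀ k, 32 * A * δ (h k) ≤ 1 := fun k => by
    induction k with
    | zero =>
      have h2 := hT _ h0
      rw [le_div_iff₀ (by positivity)] at h2
      linarith
    | succ k ih =>
      have h1 := hdec k
      have h2 := hpos (k + 1)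
      have h3 : δ (h (k + 1)) ≤ δ (h k) := by nlinarith
      nlinarith
  obtain ⟨S, hS⟩ : ∃ S : Set G, S = (T : Set G) ∪ (T : Set G)⁻¹ ∪ {1} := ⟨_, rfl⟩
  have hSf : S.Finite := hS ▸ (T.finite_toSet.union T.finite_toSet.inv).union (finite_singleton _)
  have hS1 : (1 : G) ∈ S := by simp [hS]
  have hSi : S⁻¹ = S := by
    rw [hS, Set.union_inv, Set.union_inv, inv_inv, Set.inv_singleton, inv_one, Set.union_comm (T : Set G)]
  have hinv : ∀ n x, x ∈ S ^ n → x⁻¹ ∈ S ^ n := fun n x hx => by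
    rw [← hSi, inv_pow]
    exact Set.inv_mem_inv.2 hx
  have hTS : ∀ x ∈ T, x ∈ S ^ 1 := fun x hx => by simp [hS, hx]
  have hlen : ∀ k, ∃ m, m + 2 = 3 * 2 ^ k ∧ h k ∈ S ^ m := fun k => by
    induction k with
    | zero => exact ⟨1, rfl, hTS _ h0⟩
    | succ k ih =>
      obtain ⟨m, h1, h2⟩ := ih
      obtain ⟨x, hx, e⟩ := hs k
      refine ⟨1 + m + 1 + m, by rw [pow_succ]; omega, ?_⟩
      rw [e, commutatorElement_def]
      exact comm_mul_mem (comm_mul_mem (comm_mul_mem (hTS x hx) h2) (hinv _ _ (hTS x hx))) (hinv _ _ h2)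
  have main : ∀ m j, ∃ (W : Finset G) (n : ℕ), W.card = A ^ m ∧ n + 3 * A * 2 ^ j ≤ 3 * A * 2 ^ (j + m) ∧
      ∀ w ∈ W, w ∈ S ^ n ∧ δ w ≤ 2 * A * δ (h j) := by
    intro m
    induction m with
    | zero =>
      intro j
      refine ⟨{1}, 0, by simp, by simp, fun w hw => ?_⟩
      rw [Finset.mem_singleton.1 hw, hδ.one]
      have := hpos j
      exact ⟨by simp, by positivity⟩
    | succ m ih =>
      intro j
      obtain ⟨W, n, h1, h2, h3⟩ := ih (j + 1)
      obtain ⟨l, hl1, hl2⟩ := hlen j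
      have key : ∀ i i' w w', i < i' → i' < A → w ∈ W → w' ∈ W → h j ^ i * w ≠ h j ^ i' * w' := by
        intro i i' w w' hi hi' hw hw' e
        obtain ⟨a, rfl⟩ := Nat.exists_eq_add_of_lt hi
        have e2 : h j ^ (a + 1) = w * w'⁻¹ := by
          rw [add_assoc, pow_add, mul_assoc, mul_left_cancel_iff] at e
          rw [e, mul_inv_cancel_right]
        have b1 := hδ.pow (h j) (a + 1)
        have b2 := hδ.mul w w'⁻¹
        rw [hδ.inv, ← e2] at b2
        have b3 := (h3 w hw).2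
        have b4 := (h3 w' hw').2
        have b5 := hdec j
        have b6 := hsm j
        have b7 := hpos j
        have b8 : (1 : ℝ) ≤ (a + 1 : ℕ) := by exact_mod_cast Nat.succ_pos a
        have b9 : ((a + 1 : ℕ) : ℝ) ≤ A := by exact_mod_cast (by omega : a + 1 ≤ A)
        generalize ((a + 1 : ℕ) : ℝ) = r at *
        have c1 : r * δ (h j) ≤ 1 / 32 := by nlinarith
        have c2 : δ (h j) ≤ r * δ (h j) := by nlinarith
        have c3 : r ^ 2 * δ (h j) ^ 2 ≤ 1 / 32 * (r * δ (h j)) := by nlinarith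
        nlinarith
      refine ⟨(Finset.range A ×ˢ W).image fun p => h j ^ p.1 * p.2, 3 * 2 ^ j * A + n, ?_, ?_, ?_⟩
      · rw [Finset.card_image_of_injOn, Finset.card_product, Finset.card_range, h1, pow_succ']
        rintro ⟨i, w⟩ hp ⟨i', w'⟩ hq e
        simp only [Finset.coe_product, Finset.coe_range, mem_prod, mem_Iio, Finset.mem_coe] at hp hq e
        rcases lt_trichotomy i i' with hi | rfl | hi
        · exact absurd e (key i i' w w' hi hq.1 hp.2 hq.2)
        · rw [mul_left_cancel e]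
        · exact absurd e.symm (key i' i w' w hi hp.1 hq.2 hp.2)
      · rw [show j + (m + 1) = j + 1 + m by ring]
        rw [pow_succ] at h2
        nlinarith
      · intro w hw
        obtain ⟨⟨i, v⟩, hp, rfl⟩ := Finset.mem_image.1 hw
        obtain ⟨hi, hv⟩ := Finset.mem_product.1 hp
        rw [Finset.mem_range] at hi
        simp only at hi hv ⊢
        refine ⟨comm_mul_mem (Set.pow_subset_pow_right hS1 (Nat.mul_le_mul (by omega) hi.le) (comm_pow_mem hl2 i))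
          (h3 v hv).1, ?_⟩
        have b1 := hδ.mul (h j ^ i) v
        have b2 := hδ.comm_pow_le (h j) i
        have b3 := (h3 v hv).2
        have b5 := hdec j
        have b7 := hpos j
        have b9 : (i : ℝ) ≤ A := by exact_mod_cast hi.le
        nlinarith
  obtain ⟨C, hC⟩ := hG S hSf
  obtain ⟨m, hm⟩ : ∃ m, m = C * (4 * A) ^ d := ⟨_, rfl⟩
  obtain ⟨W, n, h1, h2, h3⟩ := main m 0
  have hfin : ∀ n, (S ^ n).Finite := fun n => by
    induction n with
    | zero => simp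
    | succ n ih => rw [pow_succ]; exact ih.mul hSf
  have h4 : W.card ≤ (S ^ n).ncard := by
    rw [← Set.ncard_coe_finset]
    exact Set.ncard_le_ncard (fun w hw => (h3 w hw).1) (hfin n)
  have h5 : n + 1 ≤ 4 * A * 2 ^ m := by
    rw [zero_add] at h2
    nlinarith
  have h6 : A ^ m ≤ m * (2 ^ m) ^ d :=
    calc A ^ m = W.card := h1.symm
      _ ≤ C * (n + 1) ^ d := h4.trans (hC n)
      _ ≤ C * (4 * A * 2 ^ m) ^ d := Nat.mul_le_mul_left _ (Nat.pow_le_pow_left h5 _)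
      _ = m * (2 ^ m) ^ d := by rw [mul_pow, ← mul_assoc, ← hm]
  have h7 : A ^ m = 2 ^ m * (2 ^ m) ^ d := by
    rw [hA, ← pow_mul, ← pow_mul, ← pow_add]
    congr 1
    ring
  rw [h7] at h6
  exact absurd (Nat.le_of_mul_le_mul_right h6 (by positivity)) (not_le.2 Nat.lt_two_pow_self)

end Crest.Agent.R182
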