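import Crest.Agent.R182.D.Defs

/-! R182/D: growth. -/

set_option autoImplicit false
set_option linter.unusedVariables false
set_option linter.unusedSectionVars false
open Set Filter Topology Crest.GroupTheory
open scoped Pointwise commutatorElement

noncomputable section
namespace Crest.Agent.R182

variable {G G' : Type*} [Group G] [Group G']

theorem grow_fin {M : Type*} [Monoid M] {S : Set M} (h : S.Finite) (n : ℕ) : (S ^ n).Finite := by
  induction n with
  | zero => rw [pow_zero]; exact Set.finite_one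
  | succ n ih => rw [pow_succ]; exact ih.mul h

theorem PG.of_injective {d : ℕ} (h : PG G' d) (f : G →* G') (hf : Function.Injective f) : PG G d := by
  intro S hS
  obtain ⟨C, hC⟩ := h (f '' S) (hS.image f)
  refine ⟨C, fun n => ?_⟩
  rw [← Set.ncard_image_of_injective _ hf, Set.image_pow]
  exact hC n

theorem PG.subgroup {d : ℕ} (h : PG G d) (H : Subgroup G) : PG H d := h.of_injective H.subtype Subtype.val_injective

theorem PG.of_surjective {d : ℕ} (h : PG G d) (f : G →* G') (hf : Function.Surjective f) : PG G' d := by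
  intro S hS
  obtain ⟨C, hC⟩ := h (Function.surjInv hf '' S) (hS.image _)
  refine ⟨C, fun n => le_trans ?_ (hC n)⟩
  have e : f '' (Function.surjInv hf '' S) = S := by
    rw [Set.image_image]
    simp [Function.surjInv_eq hf]
  conv_lhs => rw [← e, ← Set.image_pow]
  exact Set.ncard_image_le (grow_fin (hS.image _) n)

theorem grow_wl_spec {T : Set G} (hT : Subgroup.closure T = ⊤) (g : G) :
    ∃ l : List G, l.length = wordLength T g ∧ (∀ x ∈ l, x ∈ T ∨ x⁻¹ ∈ T) ∧ l.prod = g := by
  have h : {n : ℕ | ∃ l : List G, l.length = n ∧ (∀ x ∈ l, x ∈ T ∨ x⁻¹ ∈ T) ∧ l.prod = g}.Nonempty := by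
    have hg : g ∈ (Subgroup.closure T).toSubmonoid := by rw [hT]; trivial
    rw [Subgroup.closure_toSubmonoid] at hg
    obtain ⟨l, h1, h2⟩ := Submonoid.exists_list_of_mem_closure hg
    exact ⟨_, l, rfl, fun x hx => h1 x hx, h2⟩
  exact Nat.sInf_mem h

theorem grow_wl_mul {T : Set G} (hT : Subgroup.closure T = ⊤) (g g' : G) :
    wordLength T (g * g') ≤ wordLength T g + wordLength T g' := by
  obtain ⟨l, h1, h2, h3⟩ := grow_wl_spec hT g
  obtain ⟨l', h1', h2', h3'⟩ := grow_wl_spec hT g'
  refine Nat.sInf_le ⟨l ++ l', by rw [List.length_append, h1, h1'], fun x hx => ?_, by rw [List.prod_append, h3, h3']⟩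
  exact (List.mem_append.1 hx).elim (h2 x) (h2' x)

theorem grow_prod_mem {U : Set G} : ∀ l : List G, (∀ x ∈ l, x ∈ U) → l.prod ∈ U ^ l.length
  | [], _ => by simp
  | x :: l, h => by
    rw [List.prod_cons, List.length_cons, pow_succ']
    exact Set.mul_mem_mul (h x List.mem_cons_self) (grow_prod_mem l fun y hy => h y (List.mem_cons_of_mem _ hy))

theorem grow_ball_finite {T : Set G} (hf : T.Finite) (hT : Subgroup.closure T = ⊤) (n : ℕ) :
    {g | wordLength T g ≤ n}.Finite := by
  refine (grow_fin ((hf.union hf.inv).insert 1) n).subset fun g hg => ?_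
  obtain ⟨l, h1, h2, rfl⟩ := grow_wl_spec hT g
  refine Set.pow_subset_pow_right (Set.mem_insert _ _) (h1.le.trans hg) (grow_prod_mem l fun x hx => ?_)
  exact Set.mem_insert_of_mem _ (h2 x hx)

/-- growth for one generating set is enough -/
theorem PG.of_gen {d : ℕ} (T : Finset G) (hT : Subgroup.closure (T : Set G) = ⊤) (C : ℕ)
    (h : ∀ n : ℕ, {g | wordLength (T : Set G) g ≤ n}.ncard ≤ C * (n + 1) ^ d) : PG G d := by
  intro S hS
  obtain ⟨m, hm⟩ := (hS.image (wordLength (T : Set G))).bddAbove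
  have h1 : ∀ n : ℕ, S ^ n ⊆ {g | wordLength (T : Set G) g ≤ m * n} := by
    intro n
    induction n with
    | zero =>
      intro g hg
      rw [pow_zero, Set.mem_one] at hg
      subst hg
      have h0 : wordLength (T : Set G) 1 ≤ 0 := Nat.sInf_le ⟨[], rfl, by simp, rfl⟩
      exact h0.trans (Nat.zero_le _)
    | succ n ih =>
      rw [pow_succ]
      rintro _ ⟨x, hx, y, hy, rfl⟩
      exact (grow_wl_mul hT x y).trans (add_le_add (ih hx) (hm ⟨y, hy, rfl⟩))
  refine ⟨C * (m + 1) ^ d, fun n => ?_⟩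
  refine ((Set.ncard_le_ncard (h1 n) (grow_ball_finite T.finite_toSet hT _)).trans (h _)).trans ?_
  rw [mul_assoc, ← mul_pow]
  exact Nat.mul_le_mul_left _ (Nat.pow_le_pow_left (by nlinarith) _)

theorem PG.nf {d : ℕ} (h : PG G d) : NF G := by
  intro a b
  obtain ⟨C, hC⟩ := h {a, b} (Set.toFinite _)
  have h1 := (tendsto_pow_const_div_const_pow_of_one_lt d (one_lt_two : (1 : ℝ) < 2)).comp (tendsto_add_atTop_nat 1)
  have h2 := h1.const_mul (2 * C : ℝ)
  rw [mul_zero] at h2
  obtain ⟨n, hn⟩ := (h2.eventually (gt_mem_nhds one_pos)).exists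
  refine ⟨n, (hC n).trans_lt ?_⟩
  simp only [Function.comp] at hn
  rw [← mul_div_assoc, div_lt_one (by positivity), pow_succ] at hn
  have h3 : ((C * (n + 1) ^ d : ℕ) : ℝ) < ((2 ^ n : ℕ) : ℝ) := by
    push_cast at hn ⊢
    linarith
  exact_mod_cast h3

theorem NF.of_injective (h : NF G') (f : G →* G') (hf : Function.Injective f) : NF G := by
  intro a b
  obtain ⟨n, hn⟩ := h (f a) (f b)
  refine ⟨n, ?_⟩
  rwa [← Set.ncard_image_of_injective _ hf, Set.image_pow, Set.image_pair]

theorem exists_gen [Group.FG G] : ∃ S : Finset G, Gen S := by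
  classical
  obtain ⟨T, hT⟩ := Group.fg_def.1 ‹Group.FG G›
  refine ⟨insert 1 (T ∪ T⁻¹), Finset.mem_insert_self _ _, fun s hs => ?_, fun g => ?_⟩
  · simp only [Finset.mem_insert, Finset.mem_union, Finset.mem_inv', inv_inv, inv_eq_one] at hs ⊢
    tauto
  · obtain ⟨l, -, h2, rfl⟩ := grow_wl_spec hT g
    refine ⟨l.length, grow_prod_mem l fun x hx => ?_⟩
    simp only [Finset.coe_insert, Finset.coe_union, Finset.coe_inv, Set.mem_insert_iff, Set.mem_union, Set.mem_inv]
    exact Or.inr (h2 x hx)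

theorem Gen.pow_mono {S : Finset G} (hS : Gen S) : Monotone fun n : ℕ => (S : Set G) ^ n := by
  exact Set.pow_right_monotone hS.one

/-- in an infinite group the balls strictly increase -/
theorem Gen.exists_notMem [Infinite G] {S : Finset G} (hS : Gen S) (k : ℕ) :
    ∃ z ∈ (S : Set G) ^ (k + 1), z ∉ (S : Set G) ^ k := by
  by_contra h
  push Not at h
  have h1 : ∀ n, (S : Set G) ^ n ⊆ (S : Set G) ^ k := by
    intro n
    induction n with
    | zero => exact hS.pow_mono (Nat.zero_le k)
    | succ n ih =>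
      rw [pow_succ]
      refine (Set.mul_subset_mul_right ih).trans ?_
      rw [← pow_succ]
      exact h
  refine Set.infinite_univ (α := G) ((grow_fin S.finite_toSet k).subset fun g _ => ?_)
  obtain ⟨n, hn⟩ := hS.gen g
  exact h1 n hn

theorem PG.finite [Group.FG G] (h : PG G 0) : Finite G := by
  by_contra hf
  rw [not_finite_iff_infinite] at hf
  obtain ⟨S, hS⟩ := exists_gen (G := G)
  obtain ⟨C, hC⟩ := h S S.finite_toSet
  have h1 : ∀ n, n ≤ ((S : Set G) ^ n).ncard := by
    intro n
    induction n with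
    | zero => exact Nat.zero_le _
    | succ n ih =>
      obtain ⟨z, h1, h2⟩ := hS.exists_notMem n
      exact ih.trans_lt (Set.ncard_lt_ncard ⟨hS.pow_mono (Nat.le_succ n), fun h => h2 (h h1)⟩ (grow_fin S.finite_toSet _))
  have := (h1 (C + 1)).trans (hC _)
  simp at this

/-- the sets `T ^ n * t ^ j`, `1 ≤ j ≤ n + 1`, are disjoint and lie in `(T ∪ {t, 1}) ^ (2 n + 1)` -/
theorem PG.ker {d : ℕ} (h : PG G (d + 1)) (φ : G →* Multiplicative ℤ) (hφ : Function.Surjective φ) :
    PG φ.ker d := by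
  intro T hT
  obtain ⟨t, ht⟩ := hφ (Multiplicative.ofAdd 1)
  set U : Set G := insert 1 (insert t (φ.ker.subtype '' T)) with hU
  have hUf : U.Finite := ((hT.image _).insert _).insert _
  obtain ⟨C, hC⟩ := h U hUf
  refine ⟨C * 2 ^ (d + 1), fun n => ?_⟩
  have h1 : ((T ^ n) ×ˢ (Finset.range (n + 1) : Set ℕ)).ncard ≤ (U ^ (2 * n)).ncard := by
    refine Set.ncard_le_ncard_of_injOn (fun p => (p.1 : G) * t ^ p.2) ?_ ?_ (grow_fin hUf _)
    · rintro ⟨x, j⟩ ⟨hx, hj⟩
      have hj' : j ≤ n := Nat.lt_succ_iff.1 (Finset.mem_range.1 hj)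
      rw [two_mul, pow_add]
      refine Set.mul_mem_mul ?_ ?_
      · have : (x : G) ∈ φ.ker.subtype '' T ^ n := ⟨x, hx, rfl⟩
        rw [Set.image_pow] at this
        exact Set.pow_subset_pow_left ((Set.subset_insert _ _).trans (Set.subset_insert _ _)) this
      · exact Set.pow_subset_pow_right (Set.mem_insert _ _) hj'
          (Set.pow_mem_pow (Set.mem_insert_of_mem _ (Set.mem_insert _ _)))
    · rintro ⟨x, j⟩ - ⟨y, i⟩ - e
      simp only at e
      have e1 := congrArg φ e
      rw [map_mul, map_mul, map_pow, map_pow, ht, x.2, y.2, one_mul, one_mul] at e1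
      have e2 : j = i := by simpa using congrArg Multiplicative.toAdd e1
      subst e2
      exact Prod.ext (Subtype.ext (mul_right_cancel e)) rfl
  rw [Set.ncard_prod, Set.ncard_coe_finset, Finset.card_range] at h1
  have h2 : (2 * n + 1) ^ (d + 1) ≤ (2 * (n + 1)) ^ (d + 1) := Nat.pow_le_pow_left (by omega) _
  have h3 := (h1.trans (hC _)).trans (Nat.mul_le_mul_left C h2)
  rw [mul_pow, pow_succ (n + 1), ← mul_assoc, ← mul_assoc] at h3
  exact Nat.le_of_mul_le_mul_right h3 (Nat.succ_pos n)

end Crest.Agent.R182
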