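import Crest.Agent.R182.D.Defs

/-! R182/D: the length function of a bounded representation.
Transport `ρ` to matrices (`LinearMap.toMatrixAlgEquiv (Module.finBasis ℂ W)`) with the norm `Matrix.linftyOpNormedAlgebra`
(or to continuous linear maps of `Fin n → ℂ`); `‖ρ g‖ ≤ M`.  `δ g = ⨆ p : G × G, ‖ρ p.1 * (ρ g - 1) * ρ p.2‖`. -/

set_option autoImplicit false
set_option linter.unusedVariables false
set_option linter.unusedSectionVars false
open Set Filter Topology Crest.GroupTheory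
open scoped Pointwise commutatorElement

noncomputable section
namespace Crest.Agent.R182

variable {G : Type*} [Group G]

section LenAux
variable {A : Type*} [NormedRing A] [NormedAlgebra ℂ A]

/-- the bi-invariant norm -/
def lenN (ρ : G →* A) (X : A) : ℝ := ⨆ p : G × G, ‖ρ p.1 * X * ρ p.2‖

variable {ρ : G →* A} {M : ℝ}

theorem lenN_bound (hM : ∀ g, ‖ρ g‖ ≤ M) (X : A) (a b : G) : ‖ρ a * X * ρ b‖ ≤ M ^ 2 * ‖X‖ := by
  have h0 : 0 ≤ M := (norm_nonneg _).trans (hM 1)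
  calc ‖ρ a * X * ρ b‖ ≤ ‖ρ a‖ * ‖X‖ * ‖ρ b‖ :=
        (norm_mul_le _ _).trans (mul_le_mul_of_nonneg_right (norm_mul_le _ _) (norm_nonneg _))
    _ ≤ M * ‖X‖ * M := by gcongr <;> apply hM
    _ = _ := by ring

theorem le_lenN (hM : ∀ g, ‖ρ g‖ ≤ M) (X : A) (a b : G) : ‖ρ a * X * ρ b‖ ≤ lenN ρ X :=
  le_ciSup (f := fun p : G × G => ‖ρ p.1 * X * ρ p.2‖)
    ⟨M ^ 2 * ‖X‖, by rintro _ ⟨p, rfl⟩; exact lenN_bound hM X _ _⟩ (a, b)

theorem lenN_le {X : A} {c : ℝ} (h : ∀ a b, ‖ρ a * X * ρ b‖ ≤ c) : lenN ρ X ≤ c :=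
  ciSup_le fun p => h p.1 p.2

theorem norm_le_lenN (hM : ∀ g, ‖ρ g‖ ≤ M) (X : A) : ‖X‖ ≤ lenN ρ X := by
  simpa using le_lenN hM X 1 1

theorem lenN_nonneg (hM : ∀ g, ‖ρ g‖ ≤ M) (X : A) : 0 ≤ lenN ρ X := (norm_nonneg _).trans (norm_le_lenN hM X)

theorem lenN_add (hM : ∀ g, ‖ρ g‖ ≤ M) (X Y : A) : lenN ρ (X + Y) ≤ lenN ρ X + lenN ρ Y :=
  lenN_le fun a b => by
    rw [mul_add, add_mul]
    exact (norm_add_le _ _).trans (add_le_add (le_lenN hM _ _ _) (le_lenN hM _ _ _))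

theorem lenN_neg (hM : ∀ g, ‖ρ g‖ ≤ M) (X : A) : lenN ρ (-X) ≤ lenN ρ X :=
  lenN_le fun a b => by
    rw [mul_neg, neg_mul, norm_neg]
    exact le_lenN hM _ _ _

theorem lenN_sub (hM : ∀ g, ‖ρ g‖ ≤ M) (X Y : A) : lenN ρ (X - Y) ≤ lenN ρ X + lenN ρ Y := by
  rw [sub_eq_add_neg]
  exact (lenN_add hM _ _).trans (add_le_add le_rfl (lenN_neg hM Y))

theorem lenN_left (hM : ∀ g, ‖ρ g‖ ≤ M) (g : G) (X : A) : lenN ρ (ρ g * X) ≤ lenN ρ X :=
  lenN_le fun a b => by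
    rw [← mul_assoc, ← map_mul]
    exact le_lenN hM _ _ _

theorem lenN_right (hM : ∀ g, ‖ρ g‖ ≤ M) (g : G) (X : A) : lenN ρ (X * ρ g) ≤ lenN ρ X :=
  lenN_le fun a b => by
    rw [← mul_assoc, mul_assoc _ (ρ g), ← map_mul]
    exact le_lenN hM _ _ _

theorem lenN_mul (hM : ∀ g, ‖ρ g‖ ≤ M) (X Y : A) : lenN ρ (X * Y) ≤ lenN ρ X * lenN ρ Y :=
  lenN_le fun a b => by
    have h1 := le_lenN hM X a 1
    have h2 := le_lenN hM Y 1 b
    rw [map_one, mul_one] at h1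
    rw [map_one, one_mul] at h2
    rw [← mul_assoc, mul_assoc _ Y]
    exact (norm_mul_le _ _).trans (mul_le_mul h1 h2 (norm_nonneg _) (lenN_nonneg hM X))

theorem lenN_nsmul (hM : ∀ g, ‖ρ g‖ ≤ M) (n : ℕ) (X : A) : n * lenN ρ X ≤ lenN ρ ((n : ℂ) • X) := by
  rcases Nat.eq_zero_or_pos n with rfl | hn
  · simpa using lenN_nonneg hM _
  · have hn' : (0 : ℝ) < n := by exact_mod_cast hn
    rw [mul_comm, ← le_div_iff₀ hn']
    refine lenN_le fun a b => ?_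
    have := le_lenN hM ((n : ℂ) • X) a b
    rw [mul_smul_comm, smul_mul_assoc, norm_smul, Complex.norm_natCast] at this
    rw [le_div_iff₀ hn', mul_comm]
    exact this

theorem lenN_gmul (hM : ∀ g, ‖ρ g‖ ≤ M) (g h : G) :
    lenN ρ (ρ (g * h) - 1) ≤ lenN ρ (ρ g - 1) + lenN ρ (ρ h - 1) := by
  have e : ρ (g * h) - 1 = (ρ g - 1) * ρ h + (ρ h - 1) := by rw [map_mul]; noncomm_ring
  rw [e]
  exact (lenN_add hM _ _).trans (add_le_add (lenN_right hM _ _) le_rfl)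

theorem lenN_zero : lenN ρ 0 = 0 := by simp [lenN]

theorem lenN_gpow (hM : ∀ g, ‖ρ g‖ ≤ M) (g : G) (a : ℕ) : lenN ρ (ρ (g ^ a) - 1) ≤ a * lenN ρ (ρ g - 1) := by
  induction a with
  | zero => simp [lenN_zero]
  | succ a ih =>
    rw [pow_succ]
    refine (lenN_gmul hM _ _).trans ?_
    push_cast
    linarith

theorem lenN_ginv (hM : ∀ g, ‖ρ g‖ ≤ M) (g : G) : lenN ρ (ρ g⁻¹ - 1) ≤ lenN ρ (ρ g - 1) := by
  have e : ρ g⁻¹ - 1 = -(ρ g⁻¹ * (ρ g - 1)) := by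
    rw [mul_sub, ← map_mul, inv_mul_cancel, map_one, mul_one, neg_sub]
  rw [e]
  exact (lenN_neg hM _).trans (lenN_left hM _ _)

theorem lenN_second (hM : ∀ g, ‖ρ g‖ ≤ M) (g : G) (a : ℕ) :
    lenN ρ (ρ (g ^ a) - 1 - (a : ℂ) • (ρ g - 1)) ≤ a ^ 2 * lenN ρ (ρ g - 1) ^ 2 := by
  induction a with
  | zero => simp [lenN_zero]
  | succ a ih =>
    have e : ρ (g ^ (a + 1)) - 1 - ((a + 1 : ℕ) : ℂ) • (ρ g - 1) =
        (ρ (g ^ a) - 1 - (a : ℂ) • (ρ g - 1)) + (ρ (g ^ a) - 1) * (ρ g - 1) := by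
      rw [pow_succ, map_mul, Nat.cast_succ, add_smul, one_smul]
      noncomm_ring
    rw [e]
    have h0 := lenN_nonneg hM (ρ g - 1)
    have h1 := lenN_mul hM (ρ (g ^ a) - 1) (ρ g - 1)
    have h2 := mul_le_mul_of_nonneg_right (lenN_gpow hM g a) h0
    refine (lenN_add hM _ _).trans ?_
    push_cast
    have h3 : (0 : ℝ) ≤ a := Nat.cast_nonneg a
    nlinarith [mul_nonneg h3 (mul_nonneg h0 h0), mul_nonneg h0 h0]

theorem len_finiteIndex [FiniteDimensional ℂ A] (hM : ∀ g, ‖ρ g‖ ≤ M) {δ : G → ℝ}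
    (h : ∀ g h, δ (g⁻¹ * h) ≤ M ^ 2 * ‖ρ g - ρ h‖) {ε : ℝ} (hε : 0 < ε) :
    (Subgroup.closure {g | δ g ≤ ε}).FiniteIndex := by
  have : ProperSpace A := FiniteDimensional.proper ℂ A
  have tb : TotallyBounded (range ρ) :=
    (isCompact_closedBall (0 : A) M).totallyBounded.subset (by
      rintro _ ⟨g, rfl⟩
      simpa using hM g)
  have hη : 0 < ε / (M ^ 2 + 1) := by positivity
  obtain ⟨t, ht, hf, hc⟩ := Metric.finite_approx_of_totallyBounded tb _ hη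
  have := hf.to_subtype
  choose g hg using fun y : t => ht y.2
  have : Finite (G ⧸ Subgroup.closure {g | δ g ≤ ε}) := by
    refine Finite.of_surjective (fun y : t => (g y : G ⧸ Subgroup.closure {g | δ g ≤ ε})) fun q => ?_
    obtain ⟨x, rfl⟩ := QuotientGroup.mk_surjective q
    obtain ⟨y, hy, hx⟩ := mem_iUnion₂.1 (hc ⟨x, rfl⟩)
    refine ⟨⟨y, hy⟩, QuotientGroup.eq.2 (Subgroup.subset_closure ?_)⟩
    refine (h _ _).trans ?_
    rw [Metric.mem_ball, dist_comm, dist_eq_norm, lt_div_iff₀ (by positivity)] at hx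
    rw [hg ⟨y, hy⟩]
    have := norm_nonneg (y - ρ x)
    show M ^ 2 * ‖y - ρ x‖ ≤ ε
    nlinarith
  exact Subgroup.finiteIndex_of_finite_quotient

theorem len_roots {n : ℕ} (hn : 0 < n) : ∃ ε : ℝ, 0 < ε ∧ ∀ c : ℂ, ‖c - 1‖ ≤ ε → c ^ n = 1 → c = 1 := by
  have hf : ({c : ℂ | c ^ n = 1} \ {1}).Finite :=
    ((Polynomial.nthRoots n (1 : ℂ)).toFinset.finite_toSet.subset fun c hc => by
      simpa [Polynomial.mem_nthRoots hn] using hc).sdiff
  obtain ⟨ε, hε, H⟩ := Metric.isOpen_iff.1 hf.isClosed.isOpen_compl 1 (by simp)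
  refine ⟨ε / 2, by positivity, fun c h1 h2 => ?_⟩
  by_contra hne
  exact H (show c ∈ Metric.ball 1 ε by rw [Metric.mem_ball, dist_eq_norm]; linarith) ⟨h2, hne⟩

end LenAux

/-- `mul`: `gh - 1 = (g - 1) h + (h - 1)`; `comm`: `⁅g,h⁆ - 1 = ((g-1)(h-1) - (h-1)(g-1)) (hg)⁻¹`;
`pow`: `g ^ a - 1 = a (g - 1) + ∑ i < a, (g - 1) (g ^ i - 1)` -/
theorem exists_len_alg {A : Type*} [NormedRing A] [NormedAlgebra ℂ A] (ρ : G →* A) {M : ℝ} (hM : ∀ g, ‖ρ g‖ ≤ M) :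
    ∃ δ : G → ℝ, Len δ ∧ (∀ g, ‖ρ g - 1‖ ≤ δ g) ∧ ∀ g h, δ (g⁻¹ * h) ≤ M ^ 2 * ‖ρ g - ρ h‖ := by
  refine ⟨fun g => lenN ρ (ρ g - 1), ⟨fun g => lenN_nonneg hM _, by simp [lenN_zero], lenN_gmul hM,
    fun g => le_antisymm (lenN_ginv hM g) (by simpa using lenN_ginv hM g⁻¹), fun g h => ?_, fun g a => ?_⟩,
    fun g => norm_le_lenN hM _, fun g h => ?_⟩
  · have e : ρ ⁅g, h⁆ - 1 = ((ρ g - 1) * (ρ h - 1) - (ρ h - 1) * (ρ g - 1)) * ρ (h * g)⁻¹ := by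
      have e1 : (ρ g - 1) * (ρ h - 1) - (ρ h - 1) * (ρ g - 1) = ρ (g * h) - ρ (h * g) := by
        rw [map_mul, map_mul]; noncomm_ring
      rw [e1, sub_mul, ← map_mul, ← map_mul, mul_inv_cancel, map_one, commutatorElement_def, mul_inv_rev,
        ← mul_assoc]
    rw [e]
    refine (lenN_right hM _ _).trans ((lenN_sub hM _ _).trans ?_)
    have h1 := lenN_mul hM (ρ g - 1) (ρ h - 1)
    have h2 := lenN_mul hM (ρ h - 1) (ρ g - 1)
    linarith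
  · have e : (a : ℂ) • (ρ g - 1) = (ρ (g ^ a) - 1) - (ρ (g ^ a) - 1 - (a : ℂ) • (ρ g - 1)) := by abel
    refine (lenN_nsmul hM a _).trans ?_
    rw [e]
    exact (lenN_sub hM _ _).trans (add_le_add le_rfl (lenN_second hM g a))
  · have e : ρ (g⁻¹ * h) - 1 = -(ρ g⁻¹ * (ρ g - ρ h)) := by
      rw [mul_sub, ← map_mul, ← map_mul, inv_mul_cancel, map_one, neg_sub]
    show lenN ρ (ρ (g⁻¹ * h) - 1) ≤ _
    rw [e]
    exact (lenN_neg hM _).trans ((lenN_left hM _ _).trans (lenN_le fun a b => lenN_bound hM _ a b))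

open scoped Matrix.Norms.Operator in
/-- finite index: the bounded set `range ρ` is totally bounded; scalars: `c ^ n = 1` and `c` close to `1`
(finitely many roots of unity; if `W = 0` then `ρ g = 1` anyway) -/
theorem exists_len {W : Type*} [AddCommGroup W] [Module ℂ W] [FiniteDimensional ℂ W] (ρ : G →* Module.End ℂ W)
    (hρ : BddRep ρ) : ∃ δ : G → ℝ, Len δ ∧ (∀ g, δ g = 0 → ρ g = 1) ∧
      (∀ ε, 0 < ε → (Subgroup.closure {g | δ g ≤ ε}).FiniteIndex) ∧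
      ∃ ε, 0 < ε ∧ ∀ g (c : ℂ), δ g ≤ ε → (∀ w, ρ g w = c • w) → LinearMap.det (ρ g) = 1 → ρ g = 1 := by
  let b := Module.finBasis ℂ W
  let e := LinearMap.toMatrixAlgEquiv b
  let ρ' : G →* Matrix (Fin (Module.finrank ℂ W)) (Fin (Module.finrank ℂ W)) ℂ := e.toMonoidHom.comp ρ
  have hρ' : ∀ g, ρ' g = e (ρ g) := fun _ => rfl
  choose m hm using fun i j => hρ (b.coord i) (b j)
  have hM : ∀ g, ‖ρ' g‖ ≤ ∑ i, ∑ j, m i j *
      ‖(Matrix.single i j 1 : Matrix (Fin (Module.finrank ℂ W)) (Fin (Module.finrank ℂ W)) ℂ)‖ := fun g => by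
    rw [Matrix.matrix_eq_sum_single (ρ' g)]
    refine (norm_sum_le _ _).trans (Finset.sum_le_sum fun i _ => (norm_sum_le _ _).trans
      (Finset.sum_le_sum fun j _ => ?_))
    have e1 : Matrix.single i j (ρ' g i j) = ρ' g i j • Matrix.single i j (1 : ℂ) := by
      rw [Matrix.smul_single, smul_eq_mul, mul_one]
    rw [e1, norm_smul]
    refine mul_le_mul_of_nonneg_right ?_ (norm_nonneg _)
    rw [hρ', LinearMap.toMatrixAlgEquiv_apply]
    exact hm i j g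
  obtain ⟨δ, h1, h2, h3⟩ := exists_len_alg ρ' hM
  refine ⟨δ, h1, fun g hg => ?_, fun ε hε => len_finiteIndex hM h3 hε, ?_⟩
  · have := h2 g
    rw [hg, norm_le_zero_iff, sub_eq_zero, hρ'] at this
    exact e.injective (this.trans (map_one e).symm)
  · rcases Nat.eq_zero_or_pos (Module.finrank ℂ W) with h0 | h0
    · have : Subsingleton W := Module.finrank_zero_iff.1 h0
      exact ⟨1, one_pos, fun g _ _ _ _ => LinearMap.ext fun w => Subsingleton.elim _ _⟩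
    · obtain ⟨ε, hε, H⟩ := len_roots h0
      refine ⟨ε, hε, fun g c hg hc hd => ?_⟩
      have : Nonempty (Fin (Module.finrank ℂ W)) := ⟨⟨0, h0⟩⟩
      have e1 : ρ g = c • (1 : Module.End ℂ W) := LinearMap.ext fun w => by simp [hc]
      have e2 : ρ' g - 1 = (c - 1) • (1 : Matrix _ _ ℂ) := by
        rw [hρ', e1, map_smul, map_one, sub_smul, one_smul]
      have h4 := (h2 g).trans hg
      rw [e2, norm_smul, norm_one, mul_one] at h4
      rw [e1, LinearMap.det_smul, map_one, mul_one] at hd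
      rw [e1, H c h4 hd, one_smul]

end Crest.Agent.R182
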