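import Crest.Agent.R182.D.Ab
import Crest.Agent.R182.D.Comm
import Crest.Agent.R182.D.Len
import Crest.Agent.R182.D.Grow

/-! R182/D: bounded linear groups of polynomial growth. -/

set_option autoImplicit false
set_option linter.unusedVariables false
set_option linter.unusedSectionVars false
open Set Filter Topology Crest.GroupTheory
open scoped Pointwise commutatorElement

noncomputable section
namespace Crest.Agent.R182

universe u v

/-- an invariant subspace: sub- and quotient representations are bounded, and one of them has infinite image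
(on the intersection of the two kernels `ρ g - 1` is additive in `g` and bounded, hence zero) -/
theorem BddRep.split {G : Type u} [Group G] {W : Type v} [AddCommGroup W] [Module ℂ W] {ρ : G →* Module.End ℂ W}
    (hρ : BddRep ρ) (hi : ¬ ρ.ker.FiniteIndex) (U : Submodule ℂ W) (hU : ∀ g, ∀ w ∈ U, ρ g w ∈ U) :
    (∃ ρ₁ : G →* Module.End ℂ U, BddRep ρ₁ ∧ ¬ ρ₁.ker.FiniteIndex) ∨
      ∃ ρ₂ : G →* Module.End ℂ (W ⧸ U), BddRep ρ₂ ∧ ¬ ρ₂.ker.FiniteIndex := by
  let ρ₁ : G →* Module.End ℂ U :=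
    { toFun := fun g => (ρ g).restrict (hU g)
      map_one' := by ext w; simp
      map_mul' := fun g h => by ext w; simp }
  let ρ₂ : G →* Module.End ℂ (W ⧸ U) :=
    { toFun := fun g => U.mapQ U (ρ g) (hU g)
      map_one' := by ext w; simp
      map_mul' := fun g h => by ext w; simp }
  by_cases h1 : ρ₁.ker.FiniteIndex
  · refine Or.inr ⟨ρ₂, fun φ w => ?_, fun h2 => hi (Subgroup.finiteIndex_of_le (H := ρ₁.ker ⊓ ρ₂.ker) ?_)⟩
    · obtain ⟨w, rfl⟩ := U.mkQ_surjective w
      exact hρ (φ ∘ₗ U.mkQ) w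
    · rintro g ⟨g1, g2⟩
      refine LinearMap.ext fun w => sub_eq_zero.1 ((Module.forall_dual_apply_eq_zero_iff ℂ _).1 fun φ => ?_)
      have a1 : ρ g w - w ∈ U := (Submodule.Quotient.eq U).1 (LinearMap.congr_fun g2 (U.mkQ w))
      have a2 : ρ g (ρ g w - w) = ρ g w - w := congrArg Subtype.val (LinearMap.congr_fun g1 ⟨_, a1⟩)
      have a3 : ∀ n : ℕ, ρ (g ^ n) w = w + (n : ℂ) • (ρ g w - w) := fun n => by
        induction n with
        | zero => simp
        | succ n ih =>
          rw [pow_succ', map_mul, Module.End.mul_apply, ih, map_add, map_smul, a2, Nat.cast_succ, add_smul, one_smul]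
          abel
      obtain ⟨M, hM⟩ := hρ φ w
      by_contra hne
      have hpos : 0 < ‖φ (ρ g w - w)‖ := norm_pos_iff.2 hne
      obtain ⟨n, hn⟩ := exists_nat_gt ((M + ‖φ w‖) / ‖φ (ρ g w - w)‖)
      have a4 := hM (g ^ n)
      rw [a3, map_add, map_smul] at a4
      have a5 := norm_sub_le (φ w + (n : ℂ) • φ (ρ g w - w)) (φ w)
      rw [add_sub_cancel_left, norm_smul, Complex.norm_natCast] at a5
      rw [div_lt_iff₀ hpos] at hn
      linarith
  · refine Or.inl ⟨ρ₁, fun φ w => ?_, h1⟩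
    obtain ⟨ψ, rfl⟩ := φ.exists_extend
    exact hρ ψ w

theorem lin_comm_iff {G A : Type*} [Group G] [Monoid A] (ρ : G →* A) (a b : G) :
    ρ ⁅a, b⁆ = 1 ↔ Commute (ρ a) (ρ b) := by
  refine ⟨fun h => ?_, fun h => ?_⟩
  · have : a * b = ⁅a, b⁆ * (b * a) := by simp [commutatorElement_def]
    rw [Commute, SemiconjBy, ← map_mul, this, map_mul, h, one_mul, map_mul]
  · rw [commutatorElement_def, map_mul, map_mul, map_mul, h.eq, mul_assoc (ρ b), ← map_mul ρ a, mul_inv_cancel,
      map_one, mul_one, ← map_mul, mul_inv_cancel, map_one]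

theorem vi_of_rep {d : ℕ} (n : ℕ) : ∀ (G : Type u) [Group G] [Group.FG G] (W : Type v) [AddCommGroup W] [Module ℂ W]
    [FiniteDimensional ℂ W], Module.finrank ℂ W ≤ n → PG G d → ∀ ρ : G →* Module.End ℂ W, BddRep ρ →
    ¬ ρ.ker.FiniteIndex → VI G := by
  induction n with
  | zero =>
    intro G _ _ W _ _ _ hn hG ρ hρ hi
    have : Subsingleton W := Module.finrank_zero_iff.1 (Nat.le_zero.1 hn)
    exact absurd (Subgroup.finiteIndex_of_le (H := ⊤) fun g _ => Subsingleton.elim _ _) hi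
  | succ n ih =>
    intro G _ _ W _ _ _ hn hG ρ hρ hi
    obtain ⟨δ, hδ, h0, hfi, ε₁, hε₁, hsc⟩ := exists_len ρ hρ
    obtain ⟨ε, hε, e1, e2⟩ : ∃ ε : ℝ, 0 < ε ∧ ε ≤ ε₁ ∧ ε ≤ 1 / (32 * 2 ^ (d + 1)) :=
      ⟨_, lt_min hε₁ (by positivity), min_le_left _ _, min_le_right _ _⟩
    have e3 : ε ≤ 1 / 2 := e2.trans (one_div_le_one_div_of_le two_pos
      (by have := one_le_pow₀ (M₀ := ℝ) (n := d + 1) one_le_two; linarith))
    have hH := hfi ε hε
    set H := Subgroup.closure {g | δ g ≤ ε} with hHd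
    obtain ⟨T, hT, hTH⟩ := exists_finset_closure ((Group.fg_iff_subgroup_fg H).1 inferInstance)
    rw [← hHd] at hTH
    have hT' : ∀ t ∈ T, t ∈ H := fun t ht => Subgroup.subset_closure (hT ht)
    refine VI.of_subgroup H ?_
    have hi' : ¬ (ρ.comp H.subtype).ker.FiniteIndex := fun h => hi <| by
      suffices (ρ.ker ⊓ H).FiniteIndex from Subgroup.finiteIndex_of_le (H := ρ.ker ⊓ H) inf_le_left
      refine ⟨?_⟩
      rw [← Subgroup.relIndex_mul_index inf_le_right, Subgroup.inf_relIndex_right]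
      exact mul_ne_zero h.1 hH.1
    have hρ' : BddRep (ρ.comp H.subtype) := fun φ w => (hρ φ w).imp fun M hM g => hM g
    have cen : ∀ h, (∀ e ∈ T, Commute (ρ e) (ρ h)) → ∀ g ∈ H, Commute (ρ g) (ρ h) := fun h hh g hg => by
      rw [← hTH] at hg
      induction hg using Subgroup.closure_induction with
      | mem x hx => exact hh x hx
      | one => rw [map_one]; exact Commute.one_left _
      | mul x y _ _ hx hy => rw [map_mul]; exact hx.mul_left hy
      | inv x _ hx =>
        rw [← lin_comm_iff] at hx ⊢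
        have : ⁅x⁻¹, h⁆ = x⁻¹ * ⁅x, h⁆⁻¹ * x := by simp [commutatorElement_def, mul_assoc]
        have h2 : ρ ⁅x, h⁆⁻¹ = 1 := by rw [← one_mul (ρ _), ← hx, ← map_mul, mul_inv_cancel, map_one, hx]
        rw [this, map_mul, map_mul, h2, mul_one, ← map_mul, inv_mul_cancel, map_one]
    by_cases hc : ∃ z, (∀ g ∈ H, Commute (ρ g) (ρ z)) ∧ ∀ c : ℂ, ¬ ∀ w, ρ z w = c • w
    · obtain ⟨z, hz, hz'⟩ := hc
      have : Nontrivial W := by
        by_contra h
        rw [not_nontrivial_iff_subsingleton] at h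
        exact hz' 0 fun w => Subsingleton.elim _ _
      obtain ⟨c, hc⟩ := Module.End.exists_eigenvalue (ρ z)
      have u1 : Module.End.eigenspace (ρ z) c < ⊤ := lt_top_iff_ne_top.2 fun h =>
        hz' c fun w => Module.End.mem_eigenspace_iff.1 (h.ge trivial)
      have u2 := Submodule.finrank_lt_finrank_of_lt u1
      have u3 := Submodule.finrank_quotient_add_finrank (Module.End.eigenspace (ρ z) c)
      have u4 := Submodule.finrank_lt_finrank_of_lt (t := Module.End.eigenspace (ρ z) c) (bot_lt_iff_ne_bot.2 hc)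
      rw [finrank_top] at u2
      rw [finrank_bot] at u4
      rcases hρ'.split hi' (Module.End.eigenspace (ρ z) c) (fun g w hw => by
        rw [Module.End.mem_eigenspace_iff] at hw ⊢
        have := LinearMap.congr_fun (hz g g.2).eq w
        rw [Module.End.mul_apply, Module.End.mul_apply, hw, map_smul] at this
        exact this.symm) with ⟨ρ₁, a, b⟩ | ⟨ρ₁, a, b⟩
      · exact ih H _ (by omega) (hG.subgroup H) ρ₁ a b
      · exact ih H _ (by omega) (hG.subgroup H) ρ₁ a b
    by_cases hab : ∃ t ∈ T, ∃ e ∈ T, ρ ⁅e, t⁆ ≠ 1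
    · obtain ⟨t, ht, hab⟩ := hab
      refine (hδ.no_chain hG T (fun t ht => le_trans (hT ht) e2) (fun h => δ h ≤ ε ∧ ∃ e ∈ T, ρ ⁅e, h⁆ ≠ 1)
        ⟨t, ht, hT ht, hab⟩ ?_).elim
      rintro h ⟨h1, e, he, h2⟩
      have h3 : δ ⁅e, h⁆ ≤ ε := by
        have a : δ e ≤ ε := hT he
        have := mul_le_mul (show 2 * δ e ≤ 1 by linarith) h1 (hδ.nonneg h) zero_le_one
        linarith [hδ.comm e h]
      refine ⟨(hδ.nonneg h).lt_of_ne' fun h4 => h2 ((lin_comm_iff ρ _ _).2 (h0 h h4 ▸ Commute.one_right _)),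
        e, he, h3, ?_⟩
      by_contra h4
      push Not at h4 hc
      obtain ⟨c, hc⟩ := hc _ (cen _ fun e' he' => (lin_comm_iff ρ _ _).1 (h4 e' he'))
      exact h2 (hsc _ c (h3.trans e1) hc ((lin_comm_iff (LinearMap.det.comp ρ) e h).2 (Commute.all _ _)))
    · push Not at hab
      exact VI.of_comm _ (fun a b => (lin_comm_iff (ρ.comp H.subtype) a b).2 (cen b (fun e he =>
        (cen e (fun e' he' => (lin_comm_iff ρ _ _).1 (hab e he e' he')) b b.2).symm) a a.2)) hi'

/-- complexify through matrices -/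
theorem vi_of_rep_real {d : ℕ} {G : Type u} [Group G] [Group.FG G] {W : Type v} [AddCommGroup W] [Module ℝ W]
    [FiniteDimensional ℝ W] (hG : PG G d) (ρ : G →* Module.End ℝ W) (hρ : BddRep ρ) (hi : ¬ ρ.ker.FiniteIndex) :
    VI G := by
  let b := Module.finBasis ℝ W
  let σ : G →* Module.End ℂ (Fin (Module.finrank ℝ W) → ℂ) :=
    ((Matrix.toLinAlgEquiv' (R := ℂ)).toRingEquiv.toMonoidHom.comp (Complex.ofRealHom.mapMatrix.toMonoidHom.comp
      (LinearMap.toMatrixAlgEquiv b).toRingEquiv.toMonoidHom)).comp ρ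
  have hσ : ∀ g, σ g = Matrix.toLin' ((LinearMap.toMatrix b b (ρ g)).map Complex.ofReal) := fun g => rfl
  refine vi_of_rep _ G _ le_rfl hG σ (fun φ w => ?_) fun h => hi (Subgroup.finiteIndex_of_le (H := σ.ker) fun g hg => ?_)
  · choose M hM using fun i j => hρ (b.coord i) (b j)
    refine ⟨∑ i, (∑ j, M i j * ‖w j‖) * ‖φ (fun j => if i = j then 1 else 0)‖, fun g => ?_⟩
    rw [LinearMap.pi_apply_eq_sum_univ]
    refine (norm_sum_le _ _).trans (Finset.sum_le_sum fun i _ => ?_)
    rw [norm_smul, hσ, Matrix.toLin'_apply, Matrix.mulVec, dotProduct]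
    refine mul_le_mul_of_nonneg_right ((norm_sum_le _ _).trans (Finset.sum_le_sum fun j _ => ?_)) (norm_nonneg _)
    rw [norm_mul, Matrix.map_apply, Complex.norm_real, LinearMap.toMatrix_apply]
    exact mul_le_mul_of_nonneg_right (hM i j g) (norm_nonneg _)
  · have h1 : (LinearMap.toMatrix b b (ρ g)).map Complex.ofReal = (1 : Matrix _ _ ℝ).map Complex.ofReal := by
      rw [Matrix.map_one _ Complex.ofReal_zero Complex.ofReal_one]
      exact Matrix.toLin'.injective (by rw [← hσ, Matrix.toLin'_one]; exact hg)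
    exact (LinearMap.toMatrix b b).injective
      ((Matrix.map_injective Complex.ofReal_injective h1).trans (LinearMap.toMatrix_one b).symm)

end Crest.Agent.R182
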