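import Crest.Agent.R182.D.Ent

/-! R182/D: the invariant mean `m φ = lim (1 / (n+1)) ∑ k ≤ n, ip (pw k) φ` along an ultrafilter of good times. -/

set_option autoImplicit false
set_option linter.unusedVariables false
set_option linter.unusedSectionVars false
open Set Filter Topology Crest.GroupTheory
open scoped Pointwise commutatorElement

noncomputable section
namespace Crest.Agent.R182

open Function
variable {G : Type*} [Group G] {S : Finset G}

/-- Cesàro averages -/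
def avg (S : Finset G) (φ : G → ℝ) (n : ℕ) : ℝ := (∑ k ∈ Finset.range (n + 1), ip (pw S k) φ) / (n + 1)

theorem ip_pw_const (hS : Gen S) (k : ℕ) (C : ℝ) : ip (pw S k) (fun _ => C) = C := by
  have := ip_smul (pw S k) (fun _ => 1) C
  rw [ip_pw_one hS, mul_one] at this
  convert this using 2
  funext
  simp

theorem ip_pw_le (hS : Gen S) (k : ℕ) {φ : G → ℝ} {C : ℝ} (h : ∀ x, φ x ≤ C) : ip (pw S k) φ ≤ C :=
  (ip_mono (fs_pw S k) (pw_nonneg S k) h).trans_eq (ip_pw_const hS k C)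

theorem ip_pw_ge (hS : Gen S) (k : ℕ) {φ : G → ℝ} {C : ℝ} (h : ∀ x, C ≤ φ x) : C ≤ ip (pw S k) φ :=
  (ip_pw_const hS k C).symm.trans_le (ip_mono (fs_pw S k) (pw_nonneg S k) h)

theorem avg_le (hS : Gen S) {φ : G → ℝ} {C : ℝ} (h : ∀ x, φ x ≤ C) (n : ℕ) : avg S φ n ≤ C := by
  rw [avg, div_le_iff₀ (by positivity)]
  simpa [mul_comm] using Finset.sum_le_card_nsmul (Finset.range (n + 1)) _ C fun k _ => ip_pw_le hS k h

theorem avg_ge (hS : Gen S) {φ : G → ℝ} {C : ℝ} (h : ∀ x, C ≤ φ x) (n : ℕ) : C ≤ avg S φ n := by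
  rw [avg, le_div_iff₀ (by positivity)]
  simpa [mul_comm] using Finset.card_nsmul_le_sum (Finset.range (n + 1)) _ C fun k _ => ip_pw_ge hS k h

theorem hel_le (hS : Gen S) (k : ℕ) {t : G} (ht : t ∈ S) :
    hel (fun y => pw S k (t⁻¹ * y)) (pw S (k + 1)) ≤ S.card * (ent (pw S (k + 1)) - ent (pw S k)) :=
  (Finset.single_le_sum (f := fun t => hel (fun y => pw S k (t⁻¹ * y)) (pw S (k + 1)))
    (fun _ _ => hel_nonneg _ _) ht).trans (hel_le_ent hS k)

theorem avg_shift {d : ℕ} (hS : Gen S) (hG : PG G d) {φ : G → ℝ} (hφ : Bd φ) {t : G} (ht : t ∈ S) :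
    Tendsto (fun n => avg S (fun x => φ (t * x)) n - avg S φ n) atTop (𝓝 0) := by
  obtain ⟨C, hC⟩ := hφ
  obtain ⟨C', hC'⟩ := ent_le_log hS hG
  set D : ℕ → ℝ := fun k => ip (pw S k) (fun x => φ (t * x)) - ip (pw S (k + 1)) φ
  have hsq : ∀ x, φ x ^ 2 ≤ C ^ 2 := fun x => sq_le_sq' (abs_le.1 (hC x)).1 (abs_le.1 (hC x)).2
  have h1 : ∀ k, D k ^ 2 ≤ 4 * C ^ 2 * S.card * (ent (pw S (k + 1)) - ent (pw S k)) := fun k => by
    have a := hel_bound (fs_mul_left (fs_pw S k) t⁻¹) (fs_pw S (k + 1)) (fun y => pw_nonneg S k _)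
      (pw_nonneg S _) φ
    rw [ip_shift_left, ip_shift_left] at a
    have b := mul_le_mul (hel_le hS k ht) (add_le_add (ip_pw_le hS k fun x => hsq (t * x))
      (ip_pw_le hS (k + 1) hsq)) (add_nonneg (ip_pw_ge hS _ fun x => sq_nonneg _)
        (ip_pw_ge hS _ fun x => sq_nonneg _)) ((hel_nonneg _ _).trans (hel_le hS k ht))
    simp only [D]
    linarith
  have h2 : ∀ n : ℕ, ((∑ k ∈ Finset.range (n + 1), D k) / (n + 1)) ^ 2 ≤
      4 * C ^ 2 * S.card * (C' * ((n : ℝ) + 1)⁻¹ + d * (Real.log (n + 2) ^ 1 / (1 * (n + 2) + -1))) := fun n => by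
    have a := sq_sum_le_card_mul_sum_sq (s := Finset.range (n + 1)) (f := D)
    have b := Finset.sum_le_sum fun k (_ : k ∈ Finset.range (n + 1)) => h1 k
    rw [← Finset.mul_sum, Finset.sum_range_sub fun k => ent (pw S k), ent_zero, sub_zero] at b
    have c := mul_le_mul_of_nonneg_left (hC' (n + 1)) (show 0 ≤ 4 * C ^ 2 * S.card by positivity)
    have hn : (0 : ℝ) < n + 1 := by positivity
    rw [Finset.card_range] at a
    push_cast at a c
    rw [div_pow, div_le_iff₀ (by positivity), show (1 * ((n : ℝ) + 2) + -1) = n + 1 by ring, pow_one]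
    refine (a.trans (mul_le_mul_of_nonneg_left (b.trans c) hn.le)).trans_eq ?_
    rw [show (n : ℝ) + 1 + 1 = n + 2 by ring]
    field_simp
  have t1 : Tendsto (fun n : ℕ => ((n : ℝ) + 1)⁻¹) atTop (𝓝 0) :=
    (tendsto_atTop_add_const_right _ 1 tendsto_natCast_atTop_atTop).inv_tendsto_atTop
  have t2 := (Real.tendsto_pow_log_div_mul_add_atTop 1 (-1) 1 one_ne_zero).comp
    (tendsto_atTop_add_const_right _ 2 (tendsto_natCast_atTop_atTop (R := ℝ)))
  have t3 : Tendsto (fun n : ℕ => (∑ k ∈ Finset.range (n + 1), D k) / (n + 1)) atTop (𝓝 0) := by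
    have := squeeze_zero (fun n => sq_nonneg _) h2
      (by simpa using ((t1.const_mul C').add (t2.const_mul (d : ℝ))).const_mul (4 * C ^ 2 * S.card))
    rw [tendsto_zero_iff_abs_tendsto_zero]
    simpa [Real.sqrt_sq_eq_abs, Function.comp_def] using this.sqrt
  have t4 : Tendsto (fun n : ℕ => (ip (pw S (n + 1)) φ - ip (pw S 0) φ) * ((n : ℝ) + 1)⁻¹) atTop (𝓝 0) :=
    bdd_le_mul_tendsto_zero' (2 * C) (Eventually.of_forall fun n => by
      have a := fun k => ip_pw_le hS k fun x => (abs_le.1 (hC x)).2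
      have b := fun k => ip_pw_ge hS k fun x => (abs_le.1 (hC x)).1
      exact abs_le.2 ⟨by linarith [a 0, b (n + 1)], by linarith [a (n + 1), b 0]⟩) t1
  convert t3.add t4 using 2 with n
  · rw [avg, avg, ← div_eq_mul_inv, ← sub_div, ← add_div, Finset.sum_sub_distrib,
      ← Finset.sum_range_sub (fun k => ip (pw S k) φ), Finset.sum_sub_distrib]
    ring
  · simp

theorem avg_key {d : ℕ} (hS : Gen S) {f : G → ℝ} (hf : f ∈ LH S) {s : G} (hs : s ∈ S) {n : ℕ}
    (hn : (n + 1 : ℝ) * (ent (pw S (n + 1)) - ent (pw S n)) ≤ d + 1) :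
    f s ^ 2 ≤ 2 * S.card * (S.card + 1) * (d + 1) * avg S (Gm S f f) n := by
  have a := hel_bound (fs_mul_left (fs_pw S n) s⁻¹) (fs_pw S (n + 1)) (fun y => pw_nonneg S n _)
    (pw_nonneg S _) f
  have hc := hS.card_pos
  rw [ip_shift_left, ip_pw_harm hS n (f := fun y => f (s * y)) (fun x => by simpa only [Av, mul_assoc] using hf.1 (s * x)),
    ip_pw_harm hS _ hf.1, hf.2.2, sub_zero, mul_one] at a
  have b : ip (fun y => pw S n (s⁻¹ * y)) (fun y => f y ^ 2) ≤ S.card * ip (pw S (n + 1)) fun y => f y ^ 2 := by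
    rw [ip_comm (pw S (n + 1)), ← ip_smul, ip_comm _ (_ • _)]
    refine ip_mono_left ((fs_pw S (n + 1)).smul_right fun _ => (S.card : ℝ)) (fun y => pw_nonneg S n _) (fun y => ?_)
      fun y => sq_nonneg _
    rw [Pi.smul_apply, smul_eq_mul, pw_succ' hS, mul_div_cancel₀ _ hc.ne']
    exact Finset.single_le_sum (f := fun s => pw S n (s⁻¹ * y)) (fun _ _ => pw_nonneg S n _) hs
  have c : ip (pw S (n + 1)) (fun y => f y ^ 2) = (n + 1) * avg S (Gm S f f) n := by
    rw [ip_pw_sq hS hf, avg, mul_div_cancel₀ _ (by positivity)]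
  have e : 0 ≤ avg S (Gm S f f) n := avg_ge hS (fun x => div_nonneg
    (Finset.sum_nonneg fun _ _ => mul_self_nonneg _) hc.le) n
  have g := mul_le_mul (hel_le hS n hs) (add_le_add_left b (ip (pw S (n + 1)) fun y => f y ^ 2))
    (add_nonneg (by rw [ip_shift_left]; exact ip_pw_ge hS _ fun x => sq_nonneg _)
      (ip_pw_ge hS _ fun x => sq_nonneg _)) ((hel_nonneg _ _).trans (hel_le hS n hs))
  rw [c] at a g
  have k := mul_le_mul_of_nonneg_left hn (show 0 ≤ 2 * S.card * (S.card + 1) * avg S (Gm S f f) n by positivity)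
  linarith

theorem exists_mean {d : ℕ} (hS : Gen S) (hG : PG G d) : ∃ K m, Mean S K m := by
  obtain ⟨C', hC'⟩ := ent_le_log hS hG
  have hne := frequently_iff_neBot.1 (frequently_good hC')
  let U := Ultrafilter.of (atTop ⊓ 𝓟 {n : ℕ | (n + 1 : ℝ) * (ent (pw S (n + 1)) - ent (pw S n)) ≤ d + 1})
  have u1 : (U : Filter ℕ) ≤ atTop := (Ultrafilter.of_le _).trans inf_le_left
  have u2 : ∀ᶠ n : ℕ in U, (n + 1 : ℝ) * (ent (pw S (n + 1)) - ent (pw S n)) ≤ d + 1 :=
    le_principal_iff.1 ((Ultrafilter.of_le _).trans inf_le_right)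
  let B : Submodule ℝ (G → ℝ) :=
    { carrier := {φ | Bd φ}
      zero_mem' := ⟨0, by simp⟩
      add_mem' := fun ⟨C, h⟩ ⟨C', h'⟩ => ⟨C + C', fun x => (abs_add_le _ _).trans (add_le_add (h x) (h' x))⟩
      smul_mem' := fun c φ ⟨C, h⟩ => ⟨|c| * C, fun x =>
        (abs_mul _ _).trans_le (mul_le_mul_of_nonneg_left (h x) (abs_nonneg c))⟩ }
  have hL : ∀ φ : B, ∃ L, Tendsto (avg S φ) U (𝓝 L) := fun ⟨φ, C, h⟩ =>
    (isCompact_Icc.ultrafilter_le_nhds (U.map (avg S φ)) (le_principal_iff.2 (mem_map.2 (univ_mem' fun n =>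
      ⟨avg_ge hS (fun x => (abs_le.1 (h x)).1) n, avg_le hS (fun x => (abs_le.1 (h x)).2) n⟩)))).imp
      fun L h => h.2
  choose L hL using hL
  let m₀ : B →ₗ[ℝ] ℝ :=
    { toFun := L
      map_add' := fun φ ψ => tendsto_nhds_unique (hL _) (((hL φ).add (hL ψ)).congr fun n => by
        simp only [avg, Submodule.coe_add, ip_add (fs_pw S _), Finset.sum_add_distrib, add_div])
      map_smul' := fun c φ => tendsto_nhds_unique (hL _) (((hL φ).const_mul c).congr fun n => by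
        simp only [avg, Submodule.coe_smul, ip_smul, ← Finset.mul_sum, mul_div_assoc]) }
  obtain ⟨m, hm⟩ := m₀.exists_extend
  have hm' : ∀ φ, Bd φ → Tendsto (avg S φ) U (𝓝 (m φ)) := fun φ h =>
    (LinearMap.congr_fun hm ⟨φ, h⟩ : m φ = L ⟨φ, h⟩) ▸ hL ⟨φ, h⟩
  have hB : ∀ φ (t : G), Bd φ → Bd fun x => φ (t * x) := fun φ t h => h.imp fun C h x => h _
  refine ⟨2 * S.card * (S.card + 1) * (d + 1), m, by positivity,
    fun φ C h hC => le_of_tendsto' (hm' φ h) (avg_le hS hC), fun φ t h => ?_,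
    fun f hf s hs => ge_of_tendsto ((hm' _ (LH.bd_Gm hf hf)).const_mul _) (u2.mono fun n hn => avg_key hS hf hs hn)⟩
  obtain ⟨n, hn⟩ := hS.gen t
  induction n generalizing t with
  | zero => simp [Set.mem_one.1 (pow_zero (S : Set G) ▸ hn)]
  | succ n ih =>
    rw [pow_succ] at hn
    obtain ⟨a, ha, s, hs, rfl⟩ := hn
    rw [← ih a ha]
    simp only [mul_assoc]
    exact sub_eq_zero.1 (tendsto_nhds_unique ((hm' _ (hB _ s (hB _ a h))).sub (hm' _ (hB _ a h)))
      ((avg_shift hS hG (hB _ a h) hs).mono_left u1))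

end Crest.Agent.R182
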