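import Crest.Agent.R182.D.Grow

/-! R182/D: the lemma of Milnor and Rosset. -/

set_option autoImplicit false
set_option linter.unusedVariables false
set_option linter.unusedSectionVars false
open Set Filter Topology Crest.GroupTheory
open scoped Pointwise commutatorElement

noncomputable section
namespace Crest.Agent.R182

variable {G : Type*} [Group G]

/-- `k j = t ^ j * k * t⁻¹ ^ j`, `K m = closure {k 1, …, k m}`.  Elements of `{t, t k} ^ n` are `w * t ^ n` with `w ∈ K n`;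
if `k (m + 1) ∉ K m` for all `m` then `{t, t k} ^ n * t` and `{t, t k} ^ n * (t k)` are disjoint and the cardinality is `2 ^ n` -/
theorem NF.exists_mem (h : NF G) (t k : G) : ∃ m : ℕ,
    t ^ (m + 1) * k * (t ^ (m + 1))⁻¹ ∈ Subgroup.closure {x | ∃ j, 1 ≤ j ∧ j ≤ m ∧ x = t ^ j * k * (t ^ j)⁻¹} := by
  by_contra hn
  let K : ℕ → Subgroup G := fun m => Subgroup.closure {x | ∃ j, 1 ≤ j ∧ j ≤ m ∧ x = t ^ j * k * (t ^ j)⁻¹}
  have e1 : ∀ (n : ℕ) (y : G), y * t * (t ^ (n + 1))⁻¹ = y * (t ^ n)⁻¹ := fun n y => by group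
  have e2 : ∀ (n : ℕ) (y : G), y * (t * k) * (t ^ (n + 1))⁻¹ = y * (t ^ n)⁻¹ * (t ^ (n + 1) * k * (t ^ (n + 1))⁻¹) :=
    fun n y => by group
  have h1 : ∀ n, ∀ x ∈ ({t, t * k} : Set G) ^ n, x * (t ^ n)⁻¹ ∈ K n := fun n => by
    induction n with
    | zero => simp
    | succ n ih =>
      rw [pow_succ]
      have hK : K n ≤ K (n + 1) := Subgroup.closure_mono fun x ⟨j, a, b, c⟩ => ⟨j, a, by omega, c⟩
      rintro _ ⟨y, hy, _, rfl | rfl, rfl⟩
      · exact (e1 n y).symm ▸ hK (ih y hy)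
      · exact (e2 n y).symm ▸ mul_mem (hK (ih y hy)) (Subgroup.subset_closure ⟨n + 1, by omega, le_rfl, rfl⟩)
  obtain ⟨n, h2⟩ := h t (t * k)
  refine h2.ne ?_
  clear h2
  induction n with
  | zero => exact ncard_singleton 1
  | succ n ih =>
    have hf : (({t, t * k} : Set G) ^ n).Finite := finite_of_ncard_ne_zero (ih ▸ by positivity)
    rw [pow_succ, insert_eq, mul_union, mul_singleton, mul_singleton, ← insert_eq,
      ncard_union_eq _ (hf.image _) (hf.image _), ncard_image_of_injective _ (mul_left_injective _),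
      ncard_image_of_injective _ (mul_left_injective _), ih, pow_succ, mul_two]
    rw [disjoint_left]
    rintro _ ⟨y, hy, rfl⟩ ⟨z, hz, e⟩
    refine hn ⟨n, ((K n).mul_mem_cancel_left (h1 n z hz)).1 ?_⟩
    rw [← e2, show z * (t * k) = y * t from e, e1]
    exact h1 n y hy

theorem ros_conj {S : Set G} {g : G} (h : ∀ x ∈ S, g * x * g⁻¹ ∈ Subgroup.closure S) {x : G}
    (hx : x ∈ Subgroup.closure S) : g * x * g⁻¹ ∈ Subgroup.closure S :=
  (Subgroup.closure_le ((Subgroup.closure S).comap (MulAut.conj g).toMonoidHom)).2 h hx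

/-- apply `exists_mem` to `t` and `t⁻¹`; `L = closure {t ^ j k t ^ (-j) | -m' ≤ j ≤ m}` -/
theorem NF.exists_fg (h : NF G) (t k : G) : ∃ L : Subgroup G, L.FG ∧ k ∈ L ∧ Nz t L ∧
    ∀ K : Subgroup G, k ∈ K → Nz t K → L ≤ K := by
  obtain ⟨m, hm⟩ := h.exists_mem t k
  obtain ⟨m', hm'⟩ := h.exists_mem t⁻¹ k
  let c : ℤ → G := fun j => t ^ j * k * (t ^ j)⁻¹
  have h1 : ∀ j : ℤ, -(m' + 1 : ℤ) ≤ j → j ≤ m + 1 → c j ∈ Subgroup.closure (c '' Icc (-m' : ℤ) m) := fun j a b => by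
    rcases b.eq_or_lt with rfl | b
    · rw [← zpow_natCast] at hm
      refine Subgroup.closure_mono ?_ hm
      rintro _ ⟨i, -, hi, rfl⟩
      exact ⟨i, ⟨by omega, by omega⟩, by simp [c]⟩
    rcases a.eq_or_lt with rfl | a
    · rw [inv_pow, ← zpow_natCast, ← zpow_neg] at hm'
      refine Subgroup.closure_mono ?_ hm'
      rintro _ ⟨i, -, hi, rfl⟩
      exact ⟨-i, ⟨by omega, by omega⟩, by simp [c]⟩
    exact Subgroup.subset_closure ⟨j, ⟨by omega, by omega⟩, rfl⟩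
  refine ⟨Subgroup.closure (c '' Icc (-m' : ℤ) m), (Subgroup.fg_iff _).2 ⟨_, rfl, (finite_Icc _ _).image _⟩,
    by simpa [c] using h1 0 (by omega) (by omega), fun x => ⟨ros_conj ?_, fun hx => ?_⟩, fun K h2 h3 => ?_⟩
  · rintro _ ⟨j, ⟨a, b⟩, rfl⟩
    convert h1 (j + 1) (by omega) (by omega) using 1
    simp only [c]
    group
  · convert ros_conj (g := t⁻¹) ?_ hx using 1
    · group
    rintro _ ⟨j, ⟨a, b⟩, rfl⟩
    convert h1 (j - 1) (by omega) (by omega) using 1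
    simp only [c]
    group
  · rw [Subgroup.closure_le]
    rintro _ ⟨j, -, rfl⟩
    exact (Subgroup.mem_normalizer_iff.1 (zpow_mem (Subgroup.mem_normalizer_iff.2 h3) j) k).1 h2

theorem ros_mem {g : G} {H : Subgroup G} (h : Nz g H) {x : G} (hx : x ∈ H ⊔ Subgroup.zpowers g) :
    ∃ n : ℤ, x * (g ^ n)⁻¹ ∈ H := by
  rw [← SetLike.mem_coe, Subgroup.coe_mul_of_right_le_normalizer_left _ _
    (Subgroup.zpowers_le_of_mem (Subgroup.mem_normalizer_iff.2 h))] at hx
  obtain ⟨y, hy, _, ⟨n, rfl⟩, rfl⟩ := hx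
  exact ⟨n, by simpa using hy⟩

theorem ros_fin (h : NF G) {K : Subgroup G} {t : G} (ht : Nz t K) {S : Set G} (hS : S.Finite)
    (hK : S ⊆ (K ⊔ Subgroup.zpowers t : Subgroup G)) :
    ∃ L : Subgroup G, L.FG ∧ Nz t L ∧ L ≤ K ∧ S ⊆ (L ⊔ Subgroup.zpowers t : Subgroup G) := by
  induction S, hS using Set.Finite.induction_on with
  | empty => exact ⟨⊥, Subgroup.FG.bot, fun x => by simp, bot_le, empty_subset _⟩
  | @insert s S _ _ ih =>
    obtain ⟨L, a1, a2, a3, a4⟩ := ih ((subset_insert _ _).trans hK)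
    obtain ⟨n, hn⟩ := ros_mem ht (hK (mem_insert _ _))
    obtain ⟨L', b1, b2, b3, b4⟩ := h.exists_fg t (s * (t ^ n)⁻¹)
    refine ⟨L ⊔ L', a1.sup b1, Subgroup.mem_normalizer_iff.1 (Subgroup.normalizer_inf_normalizer_le_normalizer_sup L L'
      ⟨Subgroup.mem_normalizer_iff.2 a2, Subgroup.mem_normalizer_iff.2 b3⟩), sup_le a3 (b4 K hn ht),
      insert_subset ?_ (a4.trans (sup_le_sup_right le_sup_left _ : L ⊔ _ ≤ L ⊔ L' ⊔ _))⟩
    simpa using Subgroup.mul_mem_sup (Subgroup.mem_sup_right (S := L) b2) (Subgroup.zpow_mem_zpowers t n)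

/-- generators `s i = k i * t ^ n i`; `L = ⨆ L i` (`exists_fg`) is finitely generated, normalised by `t`, `L ⊔ ⟨t⟩ = H`;
`K = L ⊔ (K ⊓ ⟨t⟩)` and `K ⊓ ⟨t⟩` is cyclic -/
theorem NF.fg_cyc (h : NF G) {K : Subgroup G} {t : G} (ht : Nz t K) (hH : (K ⊔ Subgroup.zpowers t).FG) : K.FG := by
  obtain ⟨S, h1, h2⟩ := (Subgroup.fg_iff _).1 hH
  obtain ⟨L, a1, a2, a3, a4⟩ := ros_fin h ht h2 (h1 ▸ Subgroup.subset_closure)
  obtain ⟨r, hr⟩ := (Subgroup.isCyclic_iff_exists_zpowers_eq_top (K ⊓ Subgroup.zpowers t)).1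
    (Subgroup.isCyclic_of_le inf_le_right)
  have : K = L ⊔ Subgroup.zpowers r := by
    rw [hr]
    refine le_antisymm (fun x hx => ?_) (sup_le a3 inf_le_left)
    obtain ⟨n, hn⟩ := ros_mem a2 ((Subgroup.closure_le _).2 a4 (h1 ▸ Subgroup.mem_sup_left hx))
    simpa using Subgroup.mul_mem_sup hn (Subgroup.mem_inf.2
      ⟨K.inv_mem_iff.1 ((K.mul_mem_cancel_left hx).1 (a3 hn)), Subgroup.zpow_mem_zpowers t n⟩)
  rw [this]
  exact a1.sup ((Subgroup.fg_iff _).2 ⟨{r}, (Subgroup.zpowers_eq_closure r).symm, finite_singleton r⟩)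

/-- downward induction over a finite generating set -/
theorem rosset [Group.FG G] (h : NF G) (K : Subgroup G) (hK : ∀ a b : G, ⁅a, b⁆ ∈ K) : K.FG := by
  obtain ⟨S, h1, h2⟩ := (Subgroup.fg_iff _).1 (Group.FG.out (G := G))
  have h3 : (K ⊔ Subgroup.closure S).FG := by
    rw [h1, sup_top_eq]
    exact Group.FG.out
  clear h1
  induction S, h2 using Set.Finite.induction_on with
  | empty => simpa using h3
  | @insert s S _ _ ih =>
    rw [insert_eq, union_comm, Subgroup.closure_union, ← sup_assoc, ← Subgroup.zpowers_eq_closure] at h3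
    refine ih (h.fg_cyc (fun x => ?_) h3)
    rw [← Subgroup.mul_mem_cancel_left _ (Subgroup.mem_sup_left (hK s x)), commutatorElement_def, inv_mul_cancel_right]

end Crest.Agent.R182
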