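import Crest.Agent.R182.D.Ext
import Crest.Agent.R182.D.Rosset
import Crest.Agent.R182.D.Lin
import Crest.Agent.R182.D.Mean
import Crest.Agent.R182.D.Dim
import Crest.Agent.R182.D.Exist

/-! R182/D: Gromov's theorem (virtually polycyclic form). -/

set_option autoImplicit false
set_option linter.unusedVariables false
set_option linter.unusedSectionVars false
open Set Filter Topology Crest.GroupTheory
open scoped Pointwise commutatorElement

noncomputable section
namespace Crest.Agent.R182

universe u

/-- left translation on `LH S` -/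
def trl {G : Type u} [Group G] (S : Finset G) : G →* Module.End ℝ (LH S) where
  toFun g :=
    { toFun := fun f => ⟨_, LH.shift f.2 g⁻¹⟩
      map_add' := fun f f' => by ext x; simp [add_sub_add_comm]
      map_smul' := fun c f => by ext x; simp [mul_sub] }
  map_one' := by ext f x; simp [f.2.2.2]
  map_mul' g h := by ext f x; simp [mul_assoc]

theorem vi_of_pg {G : Type u} [Group G] [Group.FG G] [Infinite G] {d : ℕ} (hG : PG G d) : VI G := by
  obtain ⟨S, hS⟩ := exists_gen (G := G)
  obtain ⟨K, m, hm⟩ := exists_mean hS hG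
  have := hm.finiteDimensional hS
  obtain ⟨f, hf, hf0⟩ := exists_LH hS hG
  by_cases hi : (trl S).ker.FiniteIndex
  · have e : ∀ g ∈ (trl S).ker, ∀ x, f (g * x) = f x + f g := fun g hg x => by
      have h1 := congrFun (congrArg Subtype.val (LinearMap.congr_fun (inv_mem hg :) ⟨f, hf⟩)) x
      simp only [trl, MonoidHom.coe_mk, OneHom.coe_mk, inv_inv, LinearMap.coe_mk, AddHom.coe_mk,
        Module.End.one_apply] at h1
      linarith
    by_cases h0 : ∀ g ∈ (trl S).ker, f g = 0
    · exact absurd (LH.eq_zero_of_inv hS hf _ fun g hg x => by rw [e g hg, h0 g hg, add_zero]) hf0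
    · push Not at h0
      obtain ⟨g, hg, hg0⟩ := h0
      exact VI.of_subgroup _ (VI.of_char (fun a : (trl S).ker => f a)
        (fun a b => (e a a.2 b).trans (add_comm _ _)) (g := ⟨g, hg⟩) hg0)
  · refine vi_of_rep_real hG (trl S) (fun φ w => ?_) hi
    have hφ := FiniteDimensional.mem_span_of_iInf_ker_le_ker
      (L := fun x : G => (LinearMap.proj x : (G → ℝ) →ₗ[ℝ] ℝ) ∘ₗ (LH S).subtype) (K := φ) fun v hv => by
        have : v = 0 := Subtype.ext (funext fun x => (Submodule.mem_iInf _).1 hv x)
        simp [this]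
    induction hφ using Submodule.span_induction with
    | mem ψ hψ =>
      obtain ⟨x, rfl⟩ := hψ
      obtain ⟨L, hL⟩ := LH.abs_le w.2
      obtain ⟨n, hn⟩ := hS.gen x
      exact ⟨L * n, fun g => hL n g⁻¹ x hn⟩
    | zero => exact ⟨0, by simp⟩
    | add a b _ _ ha hb =>
      obtain ⟨M, ha⟩ := ha
      obtain ⟨M', hb⟩ := hb
      exact ⟨M + M', fun g => (norm_add_le _ _).trans (add_le_add (ha g) (hb g))⟩
    | smul c a _ ha =>
      obtain ⟨M, ha⟩ := ha
      exact ⟨‖c‖ * M, fun g => (norm_smul_le c _).trans (mul_le_mul_of_nonneg_left (ha g) (norm_nonneg c))⟩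

theorem gromov_aux (d : ℕ) : ∀ (G : Type u) [Group G] [Group.FG G], PG G d → IsVirtuallyPolycyclic G := by
  induction d with
  | zero => exact fun G _ _ h => have := h.finite; vpc_of_finite
  | succ d ih =>
    intro G _ _ h
    cases finite_or_infinite G
    · exact vpc_of_finite
    obtain ⟨H, hH, φ, hφ⟩ := vi_of_pg h
    have hK : ∀ a b : H, ⁅a, b⁆ ∈ φ.ker := fun a b => by
      rw [MonoidHom.mem_ker, map_commutatorElement, commutatorElement_eq_one_iff_mul_comm, mul_comm]
    have : Group.FG φ.ker := (Group.fg_iff_subgroup_fg _).2 (rosset (h.subgroup H).nf _ hK)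
    exact vpc_of_finiteIndex H (vpc_ext _ hK (ih _ ((h.subgroup H).ker φ hφ)))

/-- Gromov's theorem -/
theorem gromov {G : Type u} [Group G] [Group.FG G] {d : ℕ} (h : PG G d) : IsVirtuallyPolycyclic G :=
  gromov_aux d G h

end Crest.Agent.R182
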