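import Crest.Agent.R182.D.Defs

/-! R182/D: virtually indicable groups. -/

set_option autoImplicit false
set_option linter.unusedVariables false
set_option linter.unusedSectionVars false
open Set Filter Topology Crest.GroupTheory
open scoped Pointwise commutatorElement

noncomputable section
namespace Crest.Agent.R182

variable {G : Type*} [Group G]

theorem VI.of_subgroup (H : Subgroup G) [H.FiniteIndex] (h : VI H) : VI G := by
  obtain ⟨K, hK, φ, hφ⟩ := h
  refine ⟨K.map H.subtype, ⟨?_⟩, φ.comp (K.equivMapOfInjective H.subtype H.subtype_injective).symm.toMonoidHom,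
    hφ.comp (K.equivMapOfInjective H.subtype H.subtype_injective).symm.surjective⟩
  rw [Subgroup.index_map_subtype]
  exact mul_ne_zero hK.index_ne_zero Subgroup.FiniteIndex.index_ne_zero

/-- `AddCommGroup.equiv_free_prod_directSum_zmod` for `Additive A`; the rank is positive -/
theorem exists_hom_int (A : Type*) [CommGroup A] [Group.FG A] [Infinite A] :
    ∃ φ : A →* Multiplicative ℤ, Function.Surjective φ := by
  classical
  obtain ⟨ι, j, _, _, p, hp, e, ⟨f⟩⟩ := CommGroup.equiv_free_prod_prod_multiplicative_zmod A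
  have : ∀ i, NeZero (p i ^ e i) := fun i => ⟨pow_ne_zero _ (hp i).ne_zero⟩
  rcases isEmpty_or_nonempty j with hj | ⟨⟨j₀⟩⟩
  · exact (not_finite_iff_infinite.2 ‹_› (Finite.of_equiv _ f.symm.toEquiv)).elim
  · exact ⟨((Pi.evalMonoidHom _ j₀).comp (MonoidHom.fst _ _)).comp f.toMonoidHom, fun z =>
      ⟨f.symm (fun _ => z, 1), by simp⟩⟩

theorem VI.of_comm [Group.FG G] (K : Subgroup G) (hK : ∀ a b : G, ⁅a, b⁆ ∈ K) (hi : ¬ K.FiniteIndex) : VI G := by
  have h1 : commutator G ≤ K := Subgroup.commutator_le.2 fun a _ b _ => hK a b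
  have h2 : Infinite (G ⧸ commutator G) := not_finite_iff_infinite.1 fun _ =>
    have := (commutator G).finiteIndex_of_finite_quotient
    hi (Subgroup.finiteIndex_of_le h1)
  obtain ⟨φ, hφ⟩ := @exists_hom_int (Abelianization G) _ (QuotientGroup.fg (commutator G)) h2
  exact ⟨⊤, inferInstance, (φ.comp Abelianization.of).comp (Subgroup.subtype _),
    (hφ.comp (QuotientGroup.mk_surjective (s := commutator G))).comp Subgroup.topEquiv.surjective⟩

/-- a nonzero additive character -/
theorem VI.of_char [Group.FG G] (ψ : G → ℝ) (hψ : ∀ a b, ψ (a * b) = ψ a + ψ b) {g : G} (hg : ψ g ≠ 0) : VI G := by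
  let φ : G →* Multiplicative ℝ := MonoidHom.mk' (fun a => Multiplicative.ofAdd (ψ a)) fun a b => by
    rw [hψ, ofAdd_add]
  refine VI.of_comm φ.ker (fun a b => ?_) fun h => ?_
  · rw [MonoidHom.mem_ker, map_commutatorElement, commutatorElement_eq_one_iff_mul_comm, mul_comm]
  obtain ⟨n, hn, -, h1⟩ := φ.ker.exists_pow_mem_of_index_ne_zero h.index_ne_zero g
  rw [MonoidHom.mem_ker, map_pow] at h1
  have h2 : n • ψ g = 0 := congrArg Multiplicative.toAdd h1
  exact hg (by simpa [hn.ne'] using h2)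

theorem exists_finset_closure {X : Set G} (h : (Subgroup.closure X).FG) :
    ∃ T : Finset G, (T : Set G) ⊆ X ∧ Subgroup.closure (T : Set G) = Subgroup.closure X := by
  classical
  have key : ∀ g ∈ Subgroup.closure X, ∃ T : Finset G, (T : Set G) ⊆ X ∧ g ∈ Subgroup.closure (T : Set G) := by
    intro g hg
    induction hg using Subgroup.closure_induction with
    | mem x hx => exact ⟨{x}, by simpa using hx, Subgroup.subset_closure (by simp)⟩
    | one => exact ⟨∅, by simp, one_mem _⟩
    | mul x y _ _ hx hy =>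
      obtain ⟨T, h1, h2⟩ := hx
      obtain ⟨T', h3, h4⟩ := hy
      exact ⟨T ∪ T', by simp [h1, h3], mul_mem (Subgroup.closure_mono (by simp) h2) (Subgroup.closure_mono (by simp) h4)⟩
    | inv x _ hx => exact hx.imp fun T h => ⟨h.1, inv_mem h.2⟩
  obtain ⟨S, hS⟩ := h
  choose T h1 h2 using fun g : S => key g (hS ▸ Subgroup.subset_closure g.2)
  have h3 : ((S.attach.biUnion T : Finset G) : Set G) ⊆ X := fun x hx =>
    (Finset.mem_biUnion.1 hx).elim fun g hg => h1 g hg.2
  refine ⟨S.attach.biUnion T, h3, (Subgroup.closure_mono h3).antisymm ?_⟩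
  rw [← hS, Subgroup.closure_le]
  exact fun g hg => Subgroup.closure_mono
    (Finset.coe_subset.2 (Finset.subset_biUnion_of_mem T (S.mem_attach ⟨g, hg⟩))) (h2 ⟨g, hg⟩)

/-- maximum principle: a harmonic function invariant under a subgroup of finite index has finite range -/
theorem LH.eq_zero_of_inv {S : Finset G} (hS : Gen S) {f : G → ℝ} (hf : f ∈ LH S) (H : Subgroup G) [H.FiniteIndex]
    (h : ∀ g ∈ H, ∀ x, f (g * x) = f x) : f = 0 := by
  obtain ⟨q, hq⟩ := Finite.exists_max fun q : G ⧸ H => f q.out⁻¹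
  have h1 : ∀ x, f x ≤ f q.out⁻¹ := fun x => by
    obtain ⟨g, hg⟩ := QuotientGroup.mk_out_eq_mul H x⁻¹
    have := hq (x⁻¹ : G)
    rwa [hg, mul_inv_rev, inv_inv, h _ (inv_mem g.2)] at this
  generalize q.out⁻¹ = x₀ at h1
  have hc : (0 : ℝ) < S.card := Nat.cast_pos.2 (Finset.card_pos.2 ⟨1, hS.one⟩)
  have h2 : ∀ x, f x = f x₀ → ∀ s ∈ S, f (x * s) = f x₀ := fun x hx => by
    refine (Finset.sum_eq_sum_iff_of_le fun s _ => h1 (x * s)).1 ?_
    rw [(div_eq_iff hc.ne').1 (hf.1 x), hx, Finset.sum_const, nsmul_eq_mul, mul_comm]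
  have h3 : ∀ (n : ℕ), ∀ g ∈ (S : Set G) ^ n, f (x₀ * g) = f x₀ := fun n => by
    induction n with
    | zero => simp
    | succ n ih =>
      rw [pow_succ]
      rintro _ ⟨g, hg, s, hs, rfl⟩
      exact mul_assoc x₀ g s ▸ h2 _ (ih g hg) s hs
  have h4 : ∀ x, f x = f x₀ := fun x => by
    obtain ⟨n, hn⟩ := hS.gen (x₀⁻¹ * x)
    simpa using h3 n _ hn
  exact funext fun x => (h4 x).trans ((h4 1).symm.trans hf.2.2)

end Crest.Agent.R182
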