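import Mathlib
import Crest.Prelude.Def_Polycyclic
import Crest.Prelude.Def_WordHyperbolic

/-! # R182, block D (Gromov's theorem): definitions (FROZEN; owner helper57)
Route: `PG G d`, infinite ⇒ virtually indicable (`VI`): the Lipschitz harmonic functions `LH S` are nonzero (D/Exist) and finite
dimensional (entropy of the random walk: D/Ent, D/Mean, D/Dim); bounded linear groups of polynomial growth with infinite image
are `VI` (D/Comm, D/Lin).  Induction on `d` with Rosset's lemma (D/Grow) and cyclic extensions (D/PC). -/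

set_option autoImplicit false
set_option linter.unusedVariables false
set_option linter.unusedSectionVars false
open Set Filter Topology Crest.GroupTheory
open scoped Pointwise commutatorElement

noncomputable section
namespace Crest.Agent.R182

section
variable (G : Type*) [Group G]

/-- polynomial growth of degree at most `d` -/
def PG (d : ℕ) : Prop := ∀ S : Set G, S.Finite → ∃ C : ℕ, ∀ n : ℕ, (S ^ n).ncard ≤ C * (n + 1) ^ d

/-- no free subsemigroup on two generators -/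
def NF : Prop := ∀ a b : G, ∃ n : ℕ, (({a, b} : Set G) ^ n).ncard < 2 ^ n

/-- virtually indicable -/
def VI : Prop := ∃ H : Subgroup G, H.FiniteIndex ∧ ∃ φ : H →* Multiplicative ℤ, Function.Surjective φ

variable {G}

/-- `g` normalises `H` -/
def Nz (g : G) (H : Subgroup G) : Prop := ∀ x, x ∈ H ↔ g * x * g⁻¹ ∈ H

/-- polycyclic subgroups -/
inductive PC : Subgroup G → Prop
  | bot : PC ⊥
  | step (H : Subgroup G) (g : G) : PC H → Nz g H → PC (H ⊔ Subgroup.zpowers g)

/-- virtually polycyclic subgroups -/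
def VPC (K : Subgroup G) : Prop := ∃ P : Subgroup G, P ≤ K ∧ PC P ∧ P.relIndex K ≠ 0

/-- an abstract distance to the identity in a bounded group of operators -/
structure Len (δ : G → ℝ) : Prop where
  nonneg : ∀ g, 0 ≤ δ g
  one : δ 1 = 0
  mul : ∀ g h, δ (g * h) ≤ δ g + δ h
  inv : ∀ g, δ g⁻¹ = δ g
  comm : ∀ g h, δ ⁅g, h⁆ ≤ 2 * δ g * δ h
  pow : ∀ (g : G) (a : ℕ), a * δ g ≤ δ (g ^ a) + a ^ 2 * δ g ^ 2

/-- representations with bounded matrix coefficients -/
def BddRep {k W : Type*} [NormedField k] [AddCommGroup W] [Module k W] (ρ : G →* Module.End k W) : Prop :=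
  ∀ (φ : Module.Dual k W) (w : W), ∃ M : ℝ, ∀ g, ‖φ (ρ g w)‖ ≤ M

/-- symmetric generating sets containing `1` -/
structure Gen (S : Finset G) : Prop where
  one : 1 ∈ S
  inv : ∀ s ∈ S, s⁻¹ ∈ S
  gen : ∀ g : G, ∃ n : ℕ, g ∈ (S : Set G) ^ n

/-- the averaging operator -/
def Av (S : Finset G) (φ : G → ℝ) (x : G) : ℝ := (∑ s ∈ S, φ (x * s)) / S.card

open Classical in
/-- the law of the random walk at time `k` -/
def pw (S : Finset G) (k : ℕ) : G → ℝ := (Av S)^[k] fun y => if y = 1 then 1 else 0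

/-- pairing of a finitely supported function with an arbitrary function -/
def ip (ν φ : G → ℝ) : ℝ := ∑ᶠ y, ν y * φ y

/-- entropy -/
def ent (ν : G → ℝ) : ℝ := ∑ᶠ y, Real.negMulLog (ν y)

/-- squared Hellinger distance -/
def hel (ν m : G → ℝ) : ℝ := ∑ᶠ y, (√(ν y) - √(m y)) ^ 2

/-- carré du champ -/
def Gm (S : Finset G) (f g : G → ℝ) (x : G) : ℝ := (∑ s ∈ S, (f (x * s) - f x) * (g (x * s) - g x)) / S.card

/-- bounded functions -/
def Bd (φ : G → ℝ) : Prop := ∃ C : ℝ, ∀ x, |φ x| ≤ C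

/-- Lipschitz harmonic functions vanishing at `1` -/
def LH (S : Finset G) : Submodule ℝ (G → ℝ) where
  carrier := {f | (∀ x, Av S f x = f x) ∧ (∃ L : ℝ, ∀ x, ∀ s ∈ S, |f (x * s) - f x| ≤ L) ∧ f 1 = 0}
  zero_mem' := ⟨fun x => by simp [Av], ⟨0, by simp⟩, rfl⟩
  add_mem' := by
    rintro f g ⟨h1, ⟨L, h2⟩, h3⟩ ⟨h1', ⟨L', h2'⟩, h3'⟩
    refine ⟨fun x => ?_, ⟨L + L', fun x s hs => ?_⟩, by simp [h3, h3']⟩
    · rw [Pi.add_apply, ← h1 x, ← h1' x]
      simp only [Av, Pi.add_apply, Finset.sum_add_distrib, add_div]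
    · simp only [Pi.add_apply, add_sub_add_comm]
      exact (abs_add_le _ _).trans (add_le_add (h2 x s hs) (h2' x s hs))
  smul_mem' := by
    rintro c f ⟨h1, ⟨L, h2⟩, h3⟩
    refine ⟨fun x => ?_, ⟨|c| * L, fun x s hs => ?_⟩, by simp [h3]⟩
    · rw [Pi.smul_apply, ← h1 x]
      simp only [Av, Pi.smul_apply, smul_eq_mul, ← Finset.mul_sum, mul_div_assoc]
    · simp only [Pi.smul_apply, smul_eq_mul, ← mul_sub, abs_mul]
      exact mul_le_mul_of_nonneg_left (h2 x s hs) (abs_nonneg c)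

/-- an invariant mean that dominates gradients of Lipschitz harmonic functions -/
structure Mean (S : Finset G) (K : ℝ) (m : (G → ℝ) →ₗ[ℝ] ℝ) : Prop where
  K_nonneg : 0 ≤ K
  le : ∀ φ C, Bd φ → (∀ x, φ x ≤ C) → m φ ≤ C
  inv : ∀ φ t, Bd φ → m (fun x => φ (t * x)) = m φ
  key : ∀ f ∈ LH S, ∀ s ∈ S, f s ^ 2 ≤ K * m (Gm S f f)

/-- Dirichlet energy -/
def En (S : Finset G) (ξ : G → ℝ) : ℝ := ∑ s ∈ S, ∑ᶠ y, (ξ (y * s) - ξ y) ^ 2

end

end Crest.Agent.R182
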