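import Crest.Agent.R182.D.Walk

/-! R182/D: entropy of the random walk. -/

set_option autoImplicit false
set_option linter.unusedVariables false
set_option linter.unusedSectionVars false
open Set Filter Topology Crest.GroupTheory
open scoped Pointwise commutatorElement

noncomputable section
namespace Crest.Agent.R182

open Function
variable {G : Type*} [Group G] {S : Finset G} {ν m φ : G → ℝ}

theorem ent_fsum (T : Finset G) (f : G → ℝ) (h : ∀ y, y ∉ T → f y = 0) : ∑ᶠ y, f y = ∑ y ∈ T, f y :=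
  finsum_eq_sum_of_support_subset _ fun y hy => by
    by_contra h'
    exact hy (h y h')

theorem ent_pt {a b : ℝ} (ha : 0 ≤ a) (hb : 0 ≤ b) (h : b = 0 → a = 0) :
    (√a - √b) ^ 2 ≤ -Real.negMulLog a - a * Real.log b - a + b := by
  obtain ⟨x, hx, rfl⟩ : ∃ x, 0 ≤ x ∧ a = x ^ 2 := ⟨√a, Real.sqrt_nonneg _, (Real.sq_sqrt ha).symm⟩
  obtain ⟨y, hy, rfl⟩ : ∃ y, 0 ≤ y ∧ b = y ^ 2 := ⟨√b, Real.sqrt_nonneg _, (Real.sq_sqrt hb).symm⟩
  rw [Real.sqrt_sq hx, Real.sqrt_sq hy, Real.negMulLog, Real.log_pow, Real.log_pow]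
  rcases hx.eq_or_lt with rfl | hx'
  · simp
  have hy' : 0 < y := hy.lt_of_ne fun e => by
    subst e
    exact (pow_pos hx' 2).ne' (h (by simp))
  have h1 := Real.log_le_sub_one_of_pos (div_pos hy' hx')
  rw [Real.log_div hy'.ne' hx'.ne'] at h1
  have h2 := mul_le_mul_of_nonneg_left h1 (sq_nonneg x)
  have h3 : x ^ 2 * (y / x - 1) = x * y - x ^ 2 := by field_simp
  push_cast
  nlinarith

/-- `(ν - m) φ = (√ν - √m) (√ν + √m) φ`, Cauchy-Schwarz -/
theorem hel_bound (hν : ν.HasFiniteSupport) (hm : m.HasFiniteSupport) (h0 : ∀ y, 0 ≤ ν y) (h0' : ∀ y, 0 ≤ m y)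
    (φ : G → ℝ) : (ip ν φ - ip m φ) ^ 2 ≤ 2 * hel ν m * (ip ν (fun y => φ y ^ 2) + ip m fun y => φ y ^ 2) := by
  classical
  have hT : ∀ y, y ∉ (hν.union hm).toFinset → ν y = 0 ∧ m y = 0 := fun y hy => by simpa using hy
  simp only [ip, hel]
  rw [ent_fsum _ _ fun y hy => by rw [(hT y hy).1, zero_mul], ent_fsum _ _ fun y hy => by rw [(hT y hy).2, zero_mul],
    ent_fsum _ _ fun y hy => by rw [(hT y hy).1, (hT y hy).2, sub_self, sq, zero_mul],
    ent_fsum _ _ fun y hy => by rw [(hT y hy).1, zero_mul], ent_fsum _ _ fun y hy => by rw [(hT y hy).2, zero_mul],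
    ← Finset.sum_sub_distrib, ← Finset.sum_add_distrib]
  have h1 := Finset.sum_mul_sq_le_sq_mul_sq (hν.union hm).toFinset (fun y => √(ν y) - √(m y))
    fun y => (√(ν y) + √(m y)) * φ y
  have h2 : ∀ y, (√(ν y) - √(m y)) * ((√(ν y) + √(m y)) * φ y) = ν y * φ y - m y * φ y := fun y => by
    linear_combination φ y * Real.sq_sqrt (h0 y) - φ y * Real.sq_sqrt (h0' y)
  simp only [h2] at h1
  refine h1.trans ?_
  rw [mul_comm 2, mul_assoc, Finset.mul_sum _ _ 2]
  refine mul_le_mul_of_nonneg_left (Finset.sum_le_sum fun y _ => ?_) (Finset.sum_nonneg fun _ _ => sq_nonneg _)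
  nlinarith [Real.sq_sqrt (h0 y), Real.sq_sqrt (h0' y), sq_nonneg ((√(ν y) - √(m y)) * φ y)]

theorem hel_nonneg (ν m : G → ℝ) : 0 ≤ hel ν m := finsum_nonneg fun _ => sq_nonneg _

/-- Jensen, or `negMulLog x ≤ x log N + 1 / N - x` -/
theorem ent_le (hS : Gen S) (k : ℕ) : ent (pw S k) ≤ Real.log ((S : Set G) ^ k).ncard := by
  classical
  have hT : ∀ y, y ∉ S ^ k → pw S k y = 0 := fun y hy => by
    by_contra h
    exact hy (by exact_mod_cast pw_supp hS k h)
  have hN : (0 : ℝ) < (S ^ k).card := by exact_mod_cast Finset.card_pos.2 ⟨1, Finset.one_mem_pow hS.one⟩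
  have h1 := ip_pw_one hS k
  rw [ip, ent_fsum _ _ fun y hy => by rw [hT y hy, zero_mul]] at h1
  simp only [mul_one] at h1
  rw [← Finset.coe_pow, Set.ncard_coe_finset, ent, ent_fsum _ _ fun y hy => by rw [hT y hy, Real.negMulLog_zero]]
  have h2 : ∀ y ∈ S ^ k, Real.negMulLog (pw S k y) ≤
      pw S k y * Real.log (S ^ k).card + 1 / (S ^ k).card - pw S k y := fun y _ => by
    rcases (pw_nonneg S k y).eq_or_lt with e | e
    · rw [← e]
      simp
    · have h3 := Real.log_le_sub_one_of_pos (inv_pos.2 (mul_pos e hN))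
      rw [Real.log_inv, Real.log_mul e.ne' hN.ne'] at h3
      have h4 := mul_le_mul_of_nonneg_left h3 e.le
      have h5 : pw S k y * ((pw S k y * (S ^ k).card)⁻¹ - 1) = 1 / (S ^ k).card - pw S k y := by field_simp
      rw [Real.negMulLog]
      linarith
  refine (Finset.sum_le_sum h2).trans (le_of_eq ?_)
  rw [Finset.sum_sub_distrib, Finset.sum_add_distrib, ← Finset.sum_mul, h1, Finset.sum_const, nsmul_eq_mul]
  field_simp
  ring

theorem ent_zero (S : Finset G) : ent (pw S 0) = 0 := by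
  refine finsum_eq_zero_of_forall_eq_zero fun y => ?_
  simp only [pw, Function.iterate_zero, id]
  split_ifs <;> simp

/-- with `ν t y = pw k (t⁻¹ y)`, `m = pw (k+1)` = the average of the `ν t`: all `ν t` have the entropy of `pw k`, and
pointwise `(√a - √b)² ≤ a log a - a log b - a + b` for `0 ≤ a`, `0 ≤ b`, (`b = 0 → a = 0`)
(`log x ≤ x - 1` at `x = √b / √a`); sum over `y` and `t` -/
theorem hel_le_ent (hS : Gen S) (k : ℕ) :
    ∑ t ∈ S, hel (fun y => pw S k (t⁻¹ * y)) (pw S (k + 1)) ≤ S.card * (ent (pw S (k + 1)) - ent (pw S k)) := by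
  classical
  have hc := hS.card_pos
  have h1 : ∀ y, ∑ t ∈ S, pw S k (t⁻¹ * y) = S.card * pw S (k + 1) y := fun y => by
    rw [pw_succ' hS]
    field_simp
  have h2 : ∀ t ∈ S, ∀ y, pw S (k + 1) y = 0 → pw S k (t⁻¹ * y) = 0 := fun t ht y hy =>
    (Finset.sum_eq_zero_iff_of_nonneg (f := fun t => pw S k (t⁻¹ * y)) fun _ _ => pw_nonneg S k _).1
      (by rw [h1, hy, mul_zero]) t ht
  have hT : ∀ y, y ∉ (fs_pw S (k + 1)).toFinset → pw S (k + 1) y = 0 := fun y hy => by simpa using hy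
  have h3 : ∀ t ∈ S, hel (fun y => pw S k (t⁻¹ * y)) (pw S (k + 1)) ≤ -ent (pw S k) +
      ∑ y ∈ (fs_pw S (k + 1)).toFinset,
        (-(pw S k (t⁻¹ * y) * (Real.log (pw S (k + 1) y) + 1)) + pw S (k + 1) y) := fun t ht => by
    have e : ent (pw S k) = ∑ᶠ y, Real.negMulLog (pw S k (t⁻¹ * y)) :=
      (finsum_comp_equiv (Equiv.mulLeft t⁻¹) (f := fun y => Real.negMulLog (pw S k y))).symm
    rw [hel, e,
      ent_fsum _ _ fun y hy => by rw [h2 t ht y (hT y hy), hT y hy, sub_self, sq, zero_mul],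
      ent_fsum _ _ fun y hy => by rw [h2 t ht y (hT y hy), Real.negMulLog_zero],
      ← Finset.sum_neg_distrib, ← Finset.sum_add_distrib]
    refine Finset.sum_le_sum fun y _ => (ent_pt (pw_nonneg S k _) (pw_nonneg S _ y) (h2 t ht y)).trans (le_of_eq ?_)
    ring
  refine (Finset.sum_le_sum h3).trans (le_of_eq ?_)
  rw [Finset.sum_add_distrib, Finset.sum_comm, Finset.sum_const, nsmul_eq_mul, mul_sub, mul_neg, neg_add_eq_sub,
    ent.eq_1 (pw S (k + 1)), ent_fsum _ _ fun y hy => by rw [hT y hy, Real.negMulLog_zero], Finset.mul_sum]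
  congr 1
  refine Finset.sum_congr rfl fun y _ => ?_
  rw [Finset.sum_add_distrib, Finset.sum_neg_distrib, ← Finset.sum_mul, h1, Finset.sum_const, nsmul_eq_mul,
    Real.negMulLog]
  ring

theorem ent_le_log {d : ℕ} (hS : Gen S) (hG : PG G d) : ∃ C : ℝ, ∀ k : ℕ, ent (pw S k) ≤ C + d * Real.log (k + 1) := by
  obtain ⟨C, hC⟩ := hG S S.finite_toSet
  refine ⟨Real.log (C + 1), fun k => (ent_le hS k).trans ?_⟩
  have h0 : 0 < ((S : Set G) ^ k).ncard :=
    (Set.ncard_pos (by classical exact_mod_cast (S ^ k).finite_toSet)).2 ⟨1, Set.one_mem_pow hS.one⟩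
  rw [← Real.log_pow, ← Real.log_mul (by positivity) (by positivity)]
  refine Real.log_le_log (by exact_mod_cast h0) ?_
  exact_mod_cast (hC k).trans (Nat.mul_le_mul_right _ (Nat.le_succ C))

/-- otherwise `H n ≥ (d + 1) * harmonic n - C` -/
theorem frequently_good {H : ℕ → ℝ} {C : ℝ} {d : ℕ} (h : ∀ k : ℕ, H k ≤ C + d * Real.log (k + 1)) :
    ∃ᶠ n : ℕ in atTop, (n + 1 : ℝ) * (H (n + 1) - H n) ≤ d + 1 := by
  intro h1
  obtain ⟨N, hN⟩ := eventually_atTop.1 h1
  have h2 : ∀ n : ℕ, N ≤ n → H N - (d + 1) * Real.log (N + 1) ≤ H n - (d + 1) * Real.log (n + 1) := fun n hn => by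
    induction n, hn using Nat.le_induction with
    | base => exact le_rfl
    | succ n hn ih =>
      have h3 := not_le.1 (hN n hn)
      have h4 : (0 : ℝ) < n + 1 := by positivity
      have h5 := Real.log_le_sub_one_of_pos (show (0 : ℝ) < (n + 1 + 1) / (n + 1) by positivity)
      rw [Real.log_div (by positivity) h4.ne', show ((n : ℝ) + 1 + 1) / (n + 1) - 1 = 1 / (n + 1) by field_simp; ring]
        at h5
      have h6 : (d + 1 : ℝ) * (1 / (n + 1)) ≤ H (n + 1) - H n := by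
        rw [mul_one_div, div_le_iff₀' h4]
        exact h3.le
      have h7 := mul_le_mul_of_nonneg_left h5 (show (0 : ℝ) ≤ d + 1 by positivity)
      push_cast
      linarith
  have h8 : Tendsto (fun n : ℕ => Real.log (n + 1)) atTop atTop :=
    Real.tendsto_log_atTop.comp (tendsto_atTop_add_const_right _ _ tendsto_natCast_atTop_atTop)
  obtain ⟨n, h9, hn⟩ := ((h8.eventually_gt_atTop (C - (H N - (d + 1) * Real.log (N + 1)))).and
    (eventually_ge_atTop N)).exists
  linarith [h2 n hn, h n]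

end Crest.Agent.R182
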