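import Crest.Agent.R182.D.Defs

/-! R182/D: polycyclic and virtually polycyclic subgroups. -/

set_option autoImplicit false
set_option linter.unusedVariables false
set_option linter.unusedSectionVars false
open Set Filter Topology Crest.GroupTheory
open scoped Pointwise commutatorElement

noncomputable section
namespace Crest.Agent.R182

variable {G G' : Type*} [Group G] [Group G']

theorem pca_nz {g : G} {H : Subgroup G} : Nz g H ↔ g ∈ Subgroup.normalizer (H : Set G) :=
  Subgroup.mem_normalizer_iff.symm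

theorem pca_le {g : G} {H : Subgroup G} (h : Nz g H) : H ⊔ Subgroup.zpowers g ≤ Subgroup.normalizer (H : Set G) :=
  sup_le Subgroup.le_normalizer (Subgroup.zpowers_le_of_mem (pca_nz.1 h))

theorem pca_mem {g : G} {H : Subgroup G} (h : Nz g H) {x : G} (hx : x ∈ H ⊔ Subgroup.zpowers g) :
    ∃ n : ℤ, x * (g ^ n)⁻¹ ∈ H := by
  rw [← SetLike.mem_coe,
    Subgroup.coe_mul_of_right_le_normalizer_left _ _ (Subgroup.zpowers_le_of_mem (pca_nz.1 h))] at hx
  obtain ⟨y, hy, _, ⟨n, rfl⟩, rfl⟩ := hx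
  exact ⟨n, by simpa using hy⟩

/-- pairs of normalising elements with the same class modulo `H` -/
def pcaB (H : Subgroup G) : Subgroup (G × G) where
  carrier := {p | p.2 ∈ Subgroup.normalizer (H : Set G) ∧ p.1 * p.2⁻¹ ∈ H}
  one_mem' := ⟨one_mem _, by simp⟩
  mul_mem' := by
    rintro ⟨a, b⟩ ⟨c, d⟩ ⟨h1, h2⟩ ⟨h3, h4⟩
    refine ⟨mul_mem h1 h3, ?_⟩
    have := H.mul_mem h2 ((Subgroup.mem_normalizer_iff.1 h1 _).1 h4)
    simpa [mul_assoc] using this
  inv_mem' := by
    rintro ⟨a, b⟩ ⟨h1, h2⟩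
    refine ⟨inv_mem h1, ?_⟩
    have := (Subgroup.mem_normalizer_iff''.1 h1 _).1 (H.inv_mem h2)
    simpa [mul_assoc] using this
theorem PC.map {P : Subgroup G} (h : PC P) (f : G →* G') : PC (P.map f) := by
  induction h with
  | bot => rw [Subgroup.map_bot]; exact PC.bot
  | step H g _ hg ih =>
    rw [Subgroup.map_sup, MonoidHom.map_zpowers]
    exact PC.step _ _ ih (pca_nz.2 (Subgroup.le_normalizer_map f ⟨g, pca_nz.1 hg, rfl⟩))

theorem PC.fg {P : Subgroup G} (h : PC P) : P.FG := by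
  induction h with
  | bot => exact Subgroup.FG.bot
  | step H g _ hg ih =>
    exact ih.sup ((Subgroup.fg_iff _).2 ⟨{g}, (Subgroup.zpowers_eq_closure g).symm, Set.finite_singleton g⟩)

/-- subgroups of polycyclic groups: induction on `PC P` for all `Q`; for `Q ≤ H ⊔ ⟨g⟩` the exponents
`{n : ℤ | ∃ h ∈ H, h * g ^ n ∈ Q}` form a cyclic subgroup of `ℤ` (`Int.subgroup_cyclic`); with `q = h * g ^ r` for a
generator `r`, `Q = (Q ⊓ H) ⊔ ⟨q⟩` -/
theorem PC.of_le {P Q : Subgroup G} (h : PC P) (hQ : Q ≤ P) : PC Q := by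
  induction h generalizing Q with
  | bot => rw [le_bot_iff.1 hQ]; exact PC.bot
  | step H g _ hg ih =>
    let A : AddSubgroup ℤ :=
      { carrier := {n | ∃ x ∈ Q, (x, g ^ n) ∈ pcaB H}
        zero_mem' := ⟨1, one_mem _, by rw [zpow_zero]; exact one_mem _⟩
        add_mem' := by
          rintro n m ⟨x, hx, h1⟩ ⟨y, hy, h2⟩
          exact ⟨x * y, mul_mem hx hy, by rw [zpow_add]; exact mul_mem h1 h2⟩
        neg_mem' := by
          rintro n ⟨x, hx, h1⟩
          exact ⟨x⁻¹, inv_mem hx, by rw [zpow_neg]; exact inv_mem h1⟩ }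
    obtain ⟨r, hr⟩ := Int.subgroup_cyclic A
    obtain ⟨q, hq, hqr⟩ : r ∈ A := hr ▸ AddSubgroup.subset_closure (Set.mem_singleton r)
    have e : Q = (Q ⊓ H) ⊔ Subgroup.zpowers q := by
      refine le_antisymm (fun x hx => ?_) (sup_le inf_le_left (Subgroup.zpowers_le_of_mem hq))
      obtain ⟨n, hn⟩ := pca_mem hg (hQ hx)
      have h1 : (x, g ^ n) ∈ pcaB H := ⟨zpow_mem (pca_nz.1 hg) n, hn⟩
      have h2 : n ∈ A := ⟨x, hx, h1⟩
      rw [hr, AddSubgroup.mem_closure_singleton] at h2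
      obtain ⟨k, rfl⟩ := h2
      have h3 := ((pcaB H).mul_mem h1 (inv_mem (zpow_mem hqr k))).2
      have h4 : x * (q ^ k)⁻¹ ∈ H := by
        simpa [← zpow_mul, mul_comm r k] using h3
      rw [← inv_mul_cancel_right x (q ^ k)]
      exact mul_mem (Subgroup.mem_sup_left ⟨Q.mul_mem hx (Q.inv_mem (Q.zpow_mem hq k)), h4⟩)
        (Subgroup.mem_sup_right ⟨k, rfl⟩)
    rw [e]
    refine PC.step _ _ (ih inf_le_right) fun x => ?_
    rw [Subgroup.mem_inf, Subgroup.mem_inf, ← pca_nz.2 (pca_le hg (hQ hq)) x,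
      ← pca_nz.2 (Subgroup.le_normalizer hq) x]

theorem PC.comap {P : Subgroup G'} (h : PC P) (f : G →* G') (hf : Function.Injective f) : PC (P.comap f) := by
  have key : ∀ P : Subgroup G', PC P → P ≤ f.range → PC (P.comap f) := by
    intro P h hP
    induction h with
    | bot =>
      rw [MonoidHom.comap_bot, (MonoidHom.ker_eq_bot_iff f).2 hf]
      exact PC.bot
    | step H g _ hg ih =>
      obtain ⟨g, rfl⟩ := hP (Subgroup.mem_sup_right (Subgroup.mem_zpowers g))
      rw [← Subgroup.comap_sup_eq_of_le_range f (le_sup_left.trans hP) (le_sup_right.trans hP),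
        ← MonoidHom.map_zpowers, Subgroup.comap_map_eq_self_of_injective hf]
      refine PC.step _ _ (ih (le_sup_left.trans hP)) fun x => ?_
      rw [Subgroup.mem_comap, Subgroup.mem_comap, hg, map_mul, map_mul, map_inv]
  have := key (P ⊓ f.range) (h.of_le inf_le_left) inf_le_right
  rwa [Subgroup.comap_inf, MonoidHom.comap_range_self, inf_top_eq] at this

theorem pc_top_iff : IsPolycyclic G ↔ PC (⊤ : Subgroup G) := by
  constructor
  · rintro ⟨n, H, h0, h1, h2⟩
    rw [← h1]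
    generalize Fin.last n = i
    induction i using Fin.induction with
    | zero => rw [h0]; exact PC.bot
    | succ i ih =>
      obtain ⟨-, h3, g, hg, h4⟩ := h2 i
      rw [h4]
      refine PC.step _ _ ih fun x => ⟨h3 g hg x, fun hx => ?_⟩
      simpa [mul_assoc] using h3 g⁻¹ (inv_mem hg) _ hx
  · have key : ∀ P : Subgroup G, PC P → ∃ (n : ℕ) (H : ℕ → Subgroup G), H 0 = ⊥ ∧ H n = P ∧ ∀ i < n,
        H i ≤ H (i + 1) ∧ (∀ h ∈ H (i + 1), ∀ x ∈ H i, h * x * h⁻¹ ∈ H i) ∧
          ∃ g ∈ H (i + 1), H (i + 1) = H i ⊔ Subgroup.zpowers g := by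
      intro P h
      induction h with
      | bot => exact ⟨0, fun _ => ⊥, rfl, rfl, fun i hi => absurd hi (Nat.not_lt_zero i)⟩
      | step K g _ hg ih =>
        obtain ⟨n, H, h0, h1, h2⟩ := ih
        refine ⟨n + 1, fun i => if i ≤ n then H i else K ⊔ Subgroup.zpowers g, by simpa using h0, by simp,
          fun i hi => ?_⟩
        rcases Nat.lt_succ_iff_lt_or_eq.1 hi with h3 | rfl
        · simp only [if_pos h3.le, if_pos (Nat.succ_le_of_lt h3)]
          exact h2 i h3
        · simp only [le_refl, if_true, Nat.not_succ_le_self, if_false, h1]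
          exact ⟨le_sup_left, fun h hh x hx => (pca_nz.2 (pca_le hg hh) x).1 hx, g,
            Subgroup.mem_sup_right (Subgroup.mem_zpowers g), rfl⟩
    intro h
    obtain ⟨n, H, h0, h1, h2⟩ := key ⊤ h
    exact ⟨n, fun i => H i, h0, h1, fun i => h2 i i.2⟩

theorem pc_iff (P : Subgroup G) : IsPolycyclic P ↔ PC P := by
  rw [pc_top_iff]
  constructor
  · intro h
    have := h.map P.subtype
    rwa [← MonoidHom.range_eq_map, Subgroup.range_subtype] at this
  · intro h
    have := h.comap P.subtype P.subtype_injective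
    rwa [Subgroup.comap_subtype, Subgroup.subgroupOf_self] at this

theorem vpc_top_iff : IsVirtuallyPolycyclic G ↔ VPC (⊤ : Subgroup G) := by
  constructor
  · rintro ⟨P, h1, h2⟩
    exact ⟨P, le_top, (pc_iff P).1 h2, by rw [Subgroup.relIndex_top_right]; exact h1.index_ne_zero⟩
  · rintro ⟨P, -, h1, h2⟩
    exact ⟨P, ⟨by rwa [Subgroup.relIndex_top_right] at h2⟩, (pc_iff P).2 h1⟩

theorem vpc_iff (K : Subgroup G) : IsVirtuallyPolycyclic K ↔ VPC K := by
  constructor
  · rintro ⟨P, h1, h2⟩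
    refine ⟨P.map K.subtype, Subgroup.map_subtype_le P, ((pc_iff P).1 h2).map _, ?_⟩
    rw [Subgroup.relIndex, ← Subgroup.comap_subtype, Subgroup.comap_map_eq_self_of_injective K.subtype_injective]
    exact h1.index_ne_zero
  · rintro ⟨P, -, h1, h2⟩
    exact ⟨P.subgroupOf K, ⟨h2⟩, (pc_iff _).2 (h1.comap K.subtype K.subtype_injective)⟩

theorem VPC.of_relIndex {K L : Subgroup G} (h : VPC K) (hle : K ≤ L) (hi : K.relIndex L ≠ 0) : VPC L := by
  obtain ⟨P, h1, h2, h3⟩ := h
  exact ⟨P, h1.trans hle, h2, Subgroup.relIndex_ne_zero_trans h3 hi⟩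

theorem VPC.of_le {K L : Subgroup G} (h : VPC L) (hle : K ≤ L) : VPC K := by
  obtain ⟨P, h1, h2, h3⟩ := h
  refine ⟨P ⊓ K, inf_le_right, h2.of_le inf_le_left, ?_⟩
  rw [Subgroup.inf_relIndex_right]
  exact fun h0 => h3 (Subgroup.relIndex_eq_zero_of_le_right hle h0)

theorem VPC.map {K : Subgroup G} (h : VPC K) (f : G →* G') : VPC (K.map f) := by
  obtain ⟨P, h1, h2, h3⟩ := h
  refine ⟨P.map f, Subgroup.map_mono h1, h2.map f, ?_⟩
  rw [← Subgroup.relIndex_comap]
  exact fun h0 => h3 (Subgroup.relIndex_eq_zero_of_le_left (Subgroup.le_comap_map f P) h0)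

theorem VPC.fg {K : Subgroup G} (h : VPC K) : K.FG := by
  obtain ⟨P, h1, h2, h3⟩ := h
  have : (P.subgroupOf K).FiniteIndex := ⟨h3⟩
  have e : K = P ⊔ Subgroup.closure (Set.range fun c : K ⧸ P.subgroupOf K => (c.out : G)) := by
    refine le_antisymm (fun x hx => ?_) (sup_le h1 ((Subgroup.closure_le _).2 ?_))
    · have h4 : ((((⟨x, hx⟩ : K) : K ⧸ P.subgroupOf K).out : K) : G)⁻¹ * x ∈ P :=
        Subgroup.mem_subgroupOf.1
          (QuotientGroup.eq.1 (QuotientGroup.out_eq' ((⟨x, hx⟩ : K) : K ⧸ P.subgroupOf K)))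
      rw [← mul_inv_cancel_left ((((⟨x, hx⟩ : K) : K ⧸ P.subgroupOf K).out : K) : G) x]
      exact mul_mem (Subgroup.mem_sup_right (Subgroup.subset_closure ⟨_, rfl⟩)) (Subgroup.mem_sup_left h4)
    · rintro _ ⟨c, rfl⟩
      exact c.out.2
  rw [e]
  exact h2.fg.sup ((Subgroup.fg_iff _).2 ⟨_, rfl, Set.finite_range _⟩)

theorem vpc_of_finite [Finite G] : IsVirtuallyPolycyclic G := by
  exact ⟨⊥, inferInstance, (pc_iff _).2 PC.bot⟩

theorem vpc_of_finiteIndex (H : Subgroup G) [H.FiniteIndex] (h : IsVirtuallyPolycyclic H) :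
    IsVirtuallyPolycyclic G := by
  refine vpc_top_iff.2 (((vpc_iff H).1 h).of_relIndex le_top ?_)
  rw [Subgroup.relIndex_top_right]
  exact Subgroup.FiniteIndex.index_ne_zero

end Crest.Agent.R182
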