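import Crest.Agent.R182.D.Grow

/-! R182/D: the random walk.  `HasFiniteSupport` is handled by `fun_prop`. -/

set_option autoImplicit false
set_option linter.unusedVariables false
set_option linter.unusedSectionVars false
open Set Filter Topology Crest.GroupTheory
open scoped Pointwise commutatorElement

noncomputable section
namespace Crest.Agent.R182

open Function
variable {G : Type*} [Group G] {S : Finset G} {ν ν' φ ψ : G → ℝ}

theorem Gen.card_pos (hS : Gen S) : (0 : ℝ) < S.card := by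
  exact_mod_cast Finset.card_pos.2 ⟨1, hS.one⟩

theorem fs_mul_right (h : ν.HasFiniteSupport) (s : G) : (fun y => ν (y * s)).HasFiniteSupport := by
  exact HasFiniteSupport.fun_comp_of_injective (g := fun y => y * s) (mul_left_injective s) h

theorem fs_mul_left (h : ν.HasFiniteSupport) (s : G) : (fun y => ν (s * y)).HasFiniteSupport := by
  exact HasFiniteSupport.fun_comp_of_injective (g := fun y => s * y) (mul_right_injective s) h

theorem fs_Av (h : ν.HasFiniteSupport) : (Av S ν).HasFiniteSupport := by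
  have h1 : HasFiniteSupport fun x => ∑ s ∈ S, ν (x * s) :=
    HasFiniteSupport.sum (f := fun s x => ν (x * s)) (fun s => fs_mul_right h s) S
  exact h1.fun_comp (g := fun t : ℝ => t / (S.card : ℝ)) (zero_div _)

theorem ip_comm (ν φ : G → ℝ) : ip ν φ = ip φ ν := by
  simp only [ip, mul_comm]

theorem ip_add (h : ν.HasFiniteSupport) (φ ψ : G → ℝ) : ip ν (φ + ψ) = ip ν φ + ip ν ψ := by
  simp only [ip, Pi.add_apply, mul_add]
  exact finsum_add_distrib (h.mul_left φ) (h.mul_left ψ)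

theorem ip_sub (h : ν.HasFiniteSupport) (φ ψ : G → ℝ) : ip ν (φ - ψ) = ip ν φ - ip ν ψ := by
  simp only [ip, Pi.sub_apply, mul_sub]
  exact finsum_sub_distrib (h.mul_left φ) (h.mul_left ψ)

theorem ip_smul (ν φ : G → ℝ) (c : ℝ) : ip ν (c • φ) = c * ip ν φ := by
  simp only [ip, Pi.smul_apply, smul_eq_mul]
  rw [mul_finsum]
  exact finsum_congr fun y => by ring

theorem ip_sub_left (h : ν.HasFiniteSupport) (h' : ν'.HasFiniteSupport) (φ : G → ℝ) :
    ip (ν - ν') φ = ip ν φ - ip ν' φ := by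
  simp only [ip, Pi.sub_apply, sub_mul]
  exact finsum_sub_distrib (h.mul_left φ) (h'.mul_left φ)

theorem ip_mono (h : ν.HasFiniteSupport) (h0 : ∀ y, 0 ≤ ν y) (hle : ∀ y, φ y ≤ ψ y) : ip ν φ ≤ ip ν ψ := by
  exact finsum_le_finsum' (h.mul_left φ) (h.mul_left ψ) fun y => mul_le_mul_of_nonneg_left (hle y) (h0 y)

theorem ip_mono_left (h : ν'.HasFiniteSupport) (h0 : ∀ y, 0 ≤ ν y) (hle : ∀ y, ν y ≤ ν' y) (hφ : ∀ y, 0 ≤ φ y) :
    ip ν φ ≤ ip ν' φ := by
  have hν : ν.HasFiniteSupport := by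
    refine Set.Finite.subset h fun y hy => ?_
    intro h1
    exact hy (le_antisymm (h1 ▸ hle y) (h0 y))
  exact finsum_le_finsum' (hν.mul_left φ) (h.mul_left φ) fun y => mul_le_mul_of_nonneg_right (hle y) (hφ y)

theorem ip_shift_left (ν φ : G → ℝ) (t : G) : ip (fun y => ν (t⁻¹ * y)) φ = ip ν fun y => φ (t * y) := by
  unfold ip
  rw [← finsum_comp_equiv (Equiv.mulLeft t)]
  exact finsum_congr fun y => by simp

theorem ip_shift_right (ν φ : G → ℝ) (t : G) : ip (fun y => ν (y * t⁻¹)) φ = ip ν fun y => φ (y * t) := by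
  unfold ip
  rw [← finsum_comp_equiv (Equiv.mulRight t)]
  exact finsum_congr fun y => by simp

/-- self-adjointness -/
theorem ip_Av (hS : Gen S) (h : ν.HasFiniteSupport) (φ : G → ℝ) : ip (Av S ν) φ = ip ν (Av S φ) := by
  have e1 : ip (Av S ν) φ = (∑ s ∈ S, ip (fun y => ν (y * s)) φ) / S.card := by
    unfold ip
    rw [sum_finsum_comm S (fun s y => ν (y * s) * φ y) fun s _ => (fs_mul_right h s).mul_left φ,
      div_eq_mul_inv, finsum_mul]
    exact finsum_congr fun y => by rw [Av, ← Finset.sum_mul]; ring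
  have e2 : ip ν (Av S φ) = (∑ s ∈ S, ip ν fun y => φ (y * s)) / S.card := by
    unfold ip
    rw [sum_finsum_comm S (fun s y => ν y * φ (y * s)) fun s _ => h.mul_left _,
      div_eq_mul_inv, finsum_mul]
    exact finsum_congr fun y => by rw [Av, ← Finset.mul_sum]; ring
  rw [e1, e2]
  congr 1
  refine Finset.sum_nbij' (fun s => s⁻¹) (fun s => s⁻¹) (fun s hs => hS.inv s hs) (fun s hs => hS.inv s hs)
    (fun s _ => inv_inv s) (fun s _ => inv_inv s) fun s _ => ?_
  rw [← ip_shift_right, inv_inv]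

/-- Cauchy-Schwarz -/
theorem ip_sq_le (h : ν.HasFiniteSupport) (h' : ν'.HasFiniteSupport) :
    ip ν ν' ^ 2 ≤ (∑ᶠ y, ν y ^ 2) * ∑ᶠ y, ν' y ^ 2 := by
  classical
  set T : Finset G := (h.union h').toFinset with hT
  have hT1 : ∀ y, ν y ≠ 0 → y ∈ T := fun y hy => by
    rw [hT, Set.Finite.mem_toFinset]; exact Or.inl hy
  have hT2 : ∀ y, ν' y ≠ 0 → y ∈ T := fun y hy => by
    rw [hT, Set.Finite.mem_toFinset]; exact Or.inr hy
  unfold ip
  rw [finsum_eq_sum_of_support_subset (s := T) _ fun y hy => hT1 y (left_ne_zero_of_mul hy),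
    finsum_eq_sum_of_support_subset (s := T) _ fun y hy => hT1 y (fun h0 => hy (by simp [h0])),
    finsum_eq_sum_of_support_subset (s := T) _ fun y hy => hT2 y (fun h0 => hy (by simp [h0]))]
  exact Finset.sum_mul_sq_le_sq_mul_sq T ν ν'

theorem pw_succ (S : Finset G) (k : ℕ) : pw S (k + 1) = Av S (pw S k) := by
  exact Function.iterate_succ_apply' _ _ _

/-- the left recursion: left and right averaging commute and agree on the Dirac mass -/
theorem pw_succ' (hS : Gen S) (k : ℕ) (y : G) : pw S (k + 1) y = (∑ s ∈ S, pw S k (s⁻¹ * y)) / S.card := by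
  induction k generalizing y with
  | zero =>
    rw [pw_succ, Av]
    congr 1
    refine Finset.sum_nbij' (fun s => s⁻¹) (fun s => s⁻¹) (fun s hs => hS.inv s hs) (fun s hs => hS.inv s hs)
      (fun s _ => inv_inv s) (fun s _ => inv_inv s) fun s _ => ?_
    have : y * s = 1 ↔ s * y = 1 := mul_eq_one_comm
    simp only [pw, Function.iterate_zero, id, inv_inv]
    by_cases h : y * s = 1
    · rw [if_pos h, if_pos (this.1 h)]
    · rw [if_neg h, if_neg fun h' => h (this.2 h')]
  | succ k ih =>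
    rw [pw_succ, Av]
    rw [Finset.sum_congr rfl fun s _ => ih (y * s)]
    simp only [pw_succ, Av, ← Finset.sum_div, mul_assoc]
    rw [Finset.sum_comm]

theorem pw_nonneg (S : Finset G) (k : ℕ) (y : G) : 0 ≤ pw S k y := by
  induction k generalizing y with
  | zero =>
    simp only [pw, Function.iterate_zero, id]
    split_ifs <;> simp
  | succ k ih =>
    rw [pw_succ, Av]
    exact div_nonneg (Finset.sum_nonneg fun s _ => ih _) (Nat.cast_nonneg _)

theorem walkb_zero (S : Finset G) : support (pw S 0) ⊆ {1} := fun y hy => by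
  by_contra h
  exact hy (if_neg h)

theorem pw_supp (hS : Gen S) (k : ℕ) : support (pw S k) ⊆ (S : Set G) ^ k := by
  induction k with
  | zero => exact walkb_zero S
  | succ k ih =>
    intro y hy
    rw [mem_support, pw_succ, Av] at hy
    obtain ⟨s, hs, h⟩ := Finset.exists_ne_zero_of_sum_ne_zero (div_ne_zero_iff.1 hy).1
    rw [pow_succ]
    exact ⟨y * s, ih h, s⁻¹, hS.inv s hs, mul_inv_cancel_right y s⟩

theorem fs_pw (S : Finset G) (k : ℕ) : (pw S k).HasFiniteSupport := by
  induction k with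
  | zero => exact (finite_singleton 1).subset (walkb_zero S)
  | succ k ih => rw [pw_succ]; exact fs_Av ih

theorem ip_pw_zero (S : Finset G) (φ : G → ℝ) : ip (pw S 0) φ = φ 1 := by
  rw [ip, finsum_eq_single _ 1 fun y hy => by simp [pw, hy]]
  simp [pw]

theorem walkb_harm (hS : Gen S) (k : ℕ) {f : G → ℝ} (hf : ∀ x, Av S f x = f x) : ip (pw S k) f = f 1 := by
  induction k with
  | zero => exact ip_pw_zero S f
  | succ k ih => rw [pw_succ, ip_Av hS (fs_pw S k), funext hf, ih]

theorem ip_pw_one (hS : Gen S) (k : ℕ) : ip (pw S k) (fun _ => 1) = 1 := by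
  exact walkb_harm hS k fun x => by simp [Av, div_self hS.card_pos.ne']

theorem ip_pw_harm (hS : Gen S) (k : ℕ) {f : G → ℝ} (hf : ∀ x, Av S f x = f x) : ip (pw S k) f = f 1 := by
  exact walkb_harm hS k hf

/-- `Av (f²) = f² + Gm f f` for harmonic `f` -/
theorem ip_pw_sq (hS : Gen S) {f : G → ℝ} (hf : f ∈ LH S) (n : ℕ) :
    ip (pw S n) (fun y => f y ^ 2) = ∑ k ∈ Finset.range n, ip (pw S k) (Gm S f f) := by
  have key : Av S (fun y => f y ^ 2) = (fun y => f y ^ 2) + Gm S f f := by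
    funext x
    have h1 : ∑ s ∈ S, f (x * s) = S.card * f x := by
      rw [← hf.1 x, Av, mul_div_cancel₀ _ hS.card_pos.ne']
    have h2 : ∑ s ∈ S, (f (x * s) - f x) * (f (x * s) - f x) =
        ∑ s ∈ S, f (x * s) ^ 2 - 2 * f x * ∑ s ∈ S, f (x * s) + S.card * f x ^ 2 := by
      rw [Finset.mul_sum, ← Finset.sum_sub_distrib, ← nsmul_eq_mul, ← Finset.sum_const, ← Finset.sum_add_distrib]
      exact Finset.sum_congr rfl fun s _ => by ring
    have := hS.card_pos.ne'
    rw [Pi.add_apply, Av, Gm, h2, h1]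
    field_simp
    ring
  induction n with
  | zero => rw [ip_pw_zero, hf.2.2]; simp
  | succ n ih => rw [pw_succ, ip_Av hS (fs_pw S n), key, ip_add (fs_pw S n), ih, Finset.sum_range_succ]

theorem LH.shift {f : G → ℝ} (hf : f ∈ LH S) (t : G) : (fun x => f (t * x) - f t) ∈ LH S := by
  obtain ⟨h1, ⟨L, h2⟩, h3⟩ := hf
  refine ⟨fun x => ?_, ⟨L, fun x s hs => ?_⟩, by simp⟩
  · show _ = f (t * x) - f t
    rcases S.eq_empty_or_nonempty with rfl | hne
    · rw [← h1 (t * x), ← h1 t]
      simp [Av]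
    · have h0 : (S.card : ℝ) ≠ 0 := Nat.cast_ne_zero.2 hne.card_pos.ne'
      rw [← h1 (t * x)]
      simp only [Av, Finset.sum_sub_distrib, Finset.sum_const, nsmul_eq_mul, mul_assoc, sub_div,
        mul_div_cancel_left₀ _ h0]
  · simpa [mul_assoc] using h2 (t * x) s hs

theorem LH.bd_Gm {f g : G → ℝ} (hf : f ∈ LH S) (hg : g ∈ LH S) : Bd (Gm S f g) := by
  obtain ⟨-, ⟨L, h2⟩, -⟩ := hf
  obtain ⟨-, ⟨L', h2'⟩, -⟩ := hg
  refine ⟨|L| * |L'|, fun x => ?_⟩
  rw [Gm, abs_div, Nat.abs_cast]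
  refine div_le_of_le_mul₀ (Nat.cast_nonneg _) (by positivity) ((Finset.abs_sum_le_sum_abs _ _).trans ?_)
  rw [mul_comm, ← nsmul_eq_mul, ← Finset.sum_const]
  refine Finset.sum_le_sum fun s hs => ?_
  rw [abs_mul]
  exact mul_le_mul ((h2 x s hs).trans (le_abs_self _)) ((h2' x s hs).trans (le_abs_self _)) (abs_nonneg _)
    (abs_nonneg _)

theorem LH.abs_le {f : G → ℝ} (hf : f ∈ LH S) :
    ∃ L : ℝ, ∀ (n : ℕ) (x : G), ∀ g ∈ (S : Set G) ^ n, |f (x * g) - f x| ≤ L * n := by
  obtain ⟨-, ⟨L, h2⟩, -⟩ := hf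
  refine ⟨L, fun n x => ?_⟩
  induction n with
  | zero =>
    intro g hg
    obtain rfl : g = 1 := by simpa using hg
    simp
  | succ n ih =>
    intro g hg
    rw [pow_succ] at hg
    obtain ⟨g', hg', s, hs, rfl⟩ := hg
    have h3 := abs_sub_le (f (x * g' * s)) (f (x * g')) (f x)
    have h4 := h2 (x * g') s hs
    have h5 := ih g' hg'
    simp only [← mul_assoc]
    push_cast
    linarith

end Crest.Agent.R182
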